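import Mathlib

/-!
# P237 (helper98): definitions for Petty's projection-volume inequality in `R^3`
-/

namespace Vale.Agent.Lib.P237

open MeasureTheory

/-- Euclidean 3-space. -/
abbrev E3 : Type := EuclideanSpace ℝ (Fin 3)

/-- `projArea K a b`: the area (planar Lebesgue measure) of the orthogonal projection of `K`
onto the plane spanned by `a` and `b`, computed in the coordinates `(⟪x, a⟫, ⟪x, b⟫)`.  For an
orthonormal pair `a`, `b` this is the 2-dimensional volume of the projection of `K` onto the
plane orthogonal to a unit vector `u` orthogonal to `a` and `b`. -/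
noncomputable def projArea (K : Set E3) (a b : E3) : ℝ :=
  (volume ((fun x : E3 => ((inner ℝ x a : ℝ), (inner ℝ x b : ℝ))) '' K)).toReal

/-- `projBody K`: the projection body of `K`, the set of all `x` with
`⟪x, u⟫ ≤ vol_2 (proj_{u^⊥} K)` for every unit vector `u`; the projection onto `u^⊥` is
measured in the coordinates of an orthonormal pair `a`, `b` orthogonal to `u`.  This is the
convex body whose support function at a unit vector `u` is the area of the projection of `K`
along `u`. -/
def projBody (K : Set E3) : Set E3 :=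
  {x | ∀ a b u : E3, ‖a‖ = 1 → ‖b‖ = 1 → inner ℝ a b = (0 : ℝ) → ‖u‖ = 1 →
    inner ℝ u a = (0 : ℝ) → inner ℝ u b = (0 : ℝ) → inner ℝ x u ≤ projArea K a b}

/-- `prism D h`: the right prism (cylinder) of height `h` over the planar set `D`, namely
the set of `x` in `R^3` with `(x_0, x_1)` in `D` and `0 ≤ x_2 ≤ h`. -/
def prism (D : Set (ℝ × ℝ)) (h : ℝ) : Set E3 :=
  {x | (x 0, x 1) ∈ D ∧ 0 ≤ x 2 ∧ x 2 ≤ h}

end Vale.Agent.Lib.P237
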