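import Mathlib
open MeasureTheory Set

namespace Vale.Agent.Lib.P237

/-- The planar linear map with matrix rows `(α, β)` and `(γ, δ)`. -/
noncomputable def matMap (α β γ δ : ℝ) : (ℝ × ℝ) →ₗ[ℝ] (ℝ × ℝ) :=
  Matrix.toLin (Module.Basis.finTwoProd ℝ) (Module.Basis.finTwoProd ℝ) !![α, β; γ, δ]

theorem matMap_apply (α β γ δ : ℝ) (p : ℝ × ℝ) :
    matMap α β γ δ p = (α * p.1 + β * p.2, γ * p.1 + δ * p.2) := by
  unfold matMap
  have hp : p = p.1 • (Module.Basis.finTwoProd ℝ) 0 + p.2 • (Module.Basis.finTwoProd ℝ) 1 := by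
    ext <;> simp
  conv_lhs => rw [hp]
  rw [map_add, map_smul, map_smul, Matrix.toLin_self, Matrix.toLin_self]
  ext <;> simp [Fin.sum_univ_two] <;> ring

theorem matMap_det (α β γ δ : ℝ) : LinearMap.det (matMap α β γ δ) = α * δ - β * γ := by
  unfold matMap
  rw [LinearMap.det_toLin, Matrix.det_fin_two_of]

theorem vol_image_mat (α β γ δ : ℝ) (S : Set (ℝ × ℝ)) :
    volume ((fun p : ℝ × ℝ => (α * p.1 + β * p.2, γ * p.1 + δ * p.2)) '' S)
      = ENNReal.ofReal |α * δ - β * γ| * volume S := by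
  have h : (fun p : ℝ × ℝ => (α * p.1 + β * p.2, γ * p.1 + δ * p.2)) = ⇑(matMap α β γ δ) := by
    funext p
    rw [matMap_apply]
  rw [h, Measure.addHaar_image_linearMap, matMap_det]

end Vale.Agent.Lib.P237
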