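import Mathlib
import Vale.Agent.Lib.P237.helper98.Mat
open MeasureTheory Set

/-!
# P237 (helper98): the planar sweep inequality

For a compact convex planar set `E`, a vector `s` and two points `e₁`, `e₂` of `E`, the set
swept by `E` along the segment from `0` to `s` has area at least the area of `E` plus
`|det (s, e₁ - e₂)|`.  The proof avoids Fubini: the translates of the swept set by multiples
of `s` form a chain in which consecutive members overlap in a translate of `E`, and the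
union of the first `k` members contains a parallelogram of area `k * |det (s, e₁ - e₂)|`.
-/

namespace Vale.Agent.Lib.P237

/-- The set swept by `E` along the segment from `0` to `s`. -/
def sweepSet (E : Set (ℝ × ℝ)) (s : ℝ × ℝ) : Set (ℝ × ℝ) :=
  {x | ∃ e ∈ E, ∃ t : ℝ, 0 ≤ t ∧ t ≤ 1 ∧ x = e + t • s}

theorem sweepSet_eq_image (E : Set (ℝ × ℝ)) (s : ℝ × ℝ) :
    sweepSet E s = (fun p : (ℝ × ℝ) × ℝ => p.1 + p.2 • s) '' (E ×ˢ Icc (0:ℝ) 1) := by
  ext x
  constructor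
  · rintro ⟨e, he, t, h0, h1, rfl⟩
    exact ⟨(e, t), ⟨he, h0, h1⟩, rfl⟩
  · rintro ⟨⟨e, t⟩, ⟨he, h0, h1⟩, rfl⟩
    exact ⟨e, he, t, h0, h1, rfl⟩

theorem sweepSet_compact {E : Set (ℝ × ℝ)} (hE : IsCompact E) (s : ℝ × ℝ) :
    IsCompact (sweepSet E s) := by
  rw [sweepSet_eq_image]
  refine (hE.prod isCompact_Icc).image ?_
  fun_prop

theorem subset_sweepSet (E : Set (ℝ × ℝ)) (s : ℝ × ℝ) : E ⊆ sweepSet E s := by
  intro e he
  exact ⟨e, he, 0, le_rfl, zero_le_one, by simp⟩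

/-- The translate of a planar set by the vector `v`. -/
def shift (A : Set (ℝ × ℝ)) (v : ℝ × ℝ) : Set (ℝ × ℝ) := (fun x => x + v) '' A

theorem vol_shift (A : Set (ℝ × ℝ)) (v : ℝ × ℝ) : volume (shift A v) = volume A := by
  unfold shift
  rw [Set.image_add_right, measure_preimage_add_right]

theorem shift_compact {A : Set (ℝ × ℝ)} (hA : IsCompact A) (v : ℝ × ℝ) :
    IsCompact (shift A v) :=
  hA.image (by fun_prop)

/-- The union of the first `k` translates of `A` by multiples of `s`. -/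
def chain (A : Set (ℝ × ℝ)) (s : ℝ × ℝ) : ℕ → Set (ℝ × ℝ)
  | 0 => ∅
  | (k + 1) => chain A s k ∪ shift A ((k : ℝ) • s)

theorem mem_chain (A : Set (ℝ × ℝ)) (s : ℝ × ℝ) (x : ℝ × ℝ) (j : ℕ)
    (hx : x ∈ shift A ((j : ℝ) • s)) : ∀ k : ℕ, j < k → x ∈ chain A s k := by
  intro k
  induction k with
  | zero => intro h; exact absurd h (Nat.not_lt_zero j)
  | succ k ih =>
    intro h
    rcases Nat.lt_succ_iff_lt_or_eq.1 h with h' | h'
    · exact Or.inl (ih h')
    · subst h'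
      exact Or.inr hx

theorem chain_vol (E : Set (ℝ × ℝ)) (hE : IsCompact E) (s : ℝ × ℝ) (k : ℕ) :
    volume (chain (sweepSet E s) s (k + 1)) + (k : ENNReal) * volume E
      ≤ ((k : ENNReal) + 1) * volume (sweepSet E s) := by
  induction k with
  | zero => simp [chain, vol_shift]
  | succ k ih =>
    have hB : MeasurableSet (shift (sweepSet E s) (((k + 1 : ℕ) : ℝ) • s)) :=
      (shift_compact (sweepSet_compact hE s) _).isClosed.measurableSet
    have h1 := measure_union_add_inter (μ := volume) (chain (sweepSet E s) s (k + 1)) hB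
    have h2 : shift E (((k + 1 : ℕ) : ℝ) • s)
        ⊆ chain (sweepSet E s) s (k + 1) ∩ shift (sweepSet E s) (((k + 1 : ℕ) : ℝ) • s) := by
      rintro x ⟨e, he, rfl⟩
      refine ⟨Or.inr ⟨e + (1 : ℝ) • s, ⟨e, he, 1, zero_le_one, le_rfl, rfl⟩, ?_⟩,
        ⟨e, subset_sweepSet E s he, rfl⟩⟩
      show e + (1 : ℝ) • s + (k : ℝ) • s = e + ((k + 1 : ℕ) : ℝ) • s
      push_cast
      module
    have h3 : volume E
        ≤ volume (chain (sweepSet E s) s (k + 1)
            ∩ shift (sweepSet E s) (((k + 1 : ℕ) : ℝ) • s)) := by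
      rw [← vol_shift E (((k + 1 : ℕ) : ℝ) • s)]
      exact measure_mono h2
    have h4 : chain (sweepSet E s) s (k + 1 + 1)
        = chain (sweepSet E s) s (k + 1) ∪ shift (sweepSet E s) (((k + 1 : ℕ) : ℝ) • s) := rfl
    rw [h4]
    calc volume (chain (sweepSet E s) s (k + 1) ∪ shift (sweepSet E s) (((k + 1 : ℕ) : ℝ) • s))
          + ((k + 1 : ℕ) : ENNReal) * volume E
        = (volume (chain (sweepSet E s) s (k + 1)
              ∪ shift (sweepSet E s) (((k + 1 : ℕ) : ℝ) • s)) + volume E)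
            + (k : ENNReal) * volume E := by push_cast; ring
      _ ≤ (volume (chain (sweepSet E s) s (k + 1)
              ∪ shift (sweepSet E s) (((k + 1 : ℕ) : ℝ) • s))
            + volume (chain (sweepSet E s) s (k + 1)
              ∩ shift (sweepSet E s) (((k + 1 : ℕ) : ℝ) • s)))
            + (k : ENNReal) * volume E := by gcongr
      _ = (volume (chain (sweepSet E s) s (k + 1)) + (k : ENNReal) * volume E)
            + volume (sweepSet E s) := by rw [h1, vol_shift]; ring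
      _ ≤ ((k : ENNReal) + 1) * volume (sweepSet E s) + volume (sweepSet E s) := by gcongr
      _ = (((k + 1 : ℕ) : ENNReal) + 1) * volume (sweepSet E s) := by push_cast; ring

theorem exists_nat_slot (k : ℕ) (hk : 1 ≤ k) (y : ℝ) (hy0 : 0 ≤ y) (hyk : y ≤ k) :
    ∃ j : ℕ, j < k ∧ (j : ℝ) ≤ y ∧ y ≤ j + 1 := by
  by_cases h : y < k
  · exact ⟨⌊y⌋₊, (Nat.floor_lt hy0).2 h, Nat.floor_le hy0, (Nat.lt_floor_add_one y).le⟩
  · obtain ⟨m, rfl⟩ : ∃ m, k = m + 1 := ⟨k - 1, by omega⟩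
    refine ⟨m, Nat.lt_succ_self m, ?_, ?_⟩
    · push_cast at h hyk
      linarith
    · push_cast at h hyk
      linarith

theorem vol_unit_square : volume (Icc (0:ℝ) 1 ×ˢ Icc (0:ℝ) 1) = 1 := by
  rw [Measure.volume_eq_prod, Measure.prod_prod, Real.volume_Icc]
  simp

theorem para_subset (E : Set (ℝ × ℝ)) (hEv : Convex ℝ E) (s e₁ e₂ : ℝ × ℝ)
    (h₁ : e₁ ∈ E) (h₂ : e₂ ∈ E) (k : ℕ) (hk : 1 ≤ k) :
    shift ((fun p : ℝ × ℝ => ((e₁.1 - e₂.1) * p.1 + ((k : ℝ) * s.1) * p.2,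
        (e₁.2 - e₂.2) * p.1 + ((k : ℝ) * s.2) * p.2)) '' (Icc (0:ℝ) 1 ×ˢ Icc (0:ℝ) 1)) e₂
      ⊆ chain (sweepSet E s) s k := by
  rintro x ⟨_, ⟨⟨x1, y1⟩, ⟨⟨hx0, hx1⟩, ⟨hy0, hy1⟩⟩, rfl⟩, rfl⟩
  have hk0 : (0 : ℝ) ≤ k := Nat.cast_nonneg k
  obtain ⟨j, hjk, hj1, hj2⟩ := exists_nat_slot k hk (y1 * k) (mul_nonneg hy0 hk0)
    (by nlinarith)
  refine mem_chain _ _ _ j ?_ k hjk
  have hmem : e₂ + x1 • (e₁ - e₂) ∈ E := by
    have h := hEv h₂ h₁ (sub_nonneg.2 hx1) hx0 (by ring)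
    have e : e₂ + x1 • (e₁ - e₂) = (1 - x1) • e₂ + x1 • e₁ := by module
    rw [e]
    exact h
  refine ⟨(e₂ + x1 • (e₁ - e₂)) + (y1 * k - j) • s,
    ⟨e₂ + x1 • (e₁ - e₂), hmem, y1 * k - j, by linarith, by linarith, rfl⟩, ?_⟩
  ext
  · simp only [Prod.fst_add, Prod.smul_fst, Prod.fst_sub, smul_eq_mul]
    ring
  · simp only [Prod.snd_add, Prod.smul_snd, Prod.snd_sub, smul_eq_mul]
    ring

/-- The planar sweep inequality. -/
theorem sweep (E : Set (ℝ × ℝ)) (hEc : IsCompact E) (hEv : Convex ℝ E) (s e₁ e₂ : ℝ × ℝ)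
    (h₁ : e₁ ∈ E) (h₂ : e₂ ∈ E) :
    volume E + ENNReal.ofReal |s.1 * (e₁.2 - e₂.2) - s.2 * (e₁.1 - e₂.1)|
      ≤ volume (sweepSet E s) := by
  set dd : ℝ := |s.1 * (e₁.2 - e₂.2) - s.2 * (e₁.1 - e₂.1)| with hdd
  have hdd0 : 0 ≤ dd := abs_nonneg _
  have hA : volume (sweepSet E s) ≠ ⊤ := (sweepSet_compact hEc s).measure_lt_top.ne
  have hE : volume E ≠ ⊤ := hEc.measure_lt_top.ne
  have hineq : ∀ m : ℕ, ENNReal.ofReal (((m : ℝ) + 1) * dd) + (m : ENNReal) * volume E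
      ≤ ((m : ENNReal) + 1) * volume (sweepSet E s) := by
    intro m
    refine le_trans ?_ (chain_vol E hEc s m)
    gcongr
    have hsub := para_subset E hEv s e₁ e₂ h₁ h₂ (m + 1) (Nat.succ_le_succ (Nat.zero_le m))
    have hv := measure_mono (μ := volume) hsub
    rw [vol_shift, vol_image_mat, vol_unit_square, mul_one] at hv
    refine le_trans (le_of_eq ?_) hv
    congr 1
    have e : (e₁.1 - e₂.1) * (((m + 1 : ℕ) : ℝ) * s.2) - ((m + 1 : ℕ) : ℝ) * s.1 * (e₁.2 - e₂.2)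
        = -(((m : ℝ) + 1) * (s.1 * (e₁.2 - e₂.2) - s.2 * (e₁.1 - e₂.1))) := by
      push_cast
      ring
    rw [e, abs_neg, abs_mul, abs_of_nonneg (by positivity : (0 : ℝ) ≤ (m : ℝ) + 1)]
  set a : ℝ := (volume (sweepSet E s)).toReal with ha
  set e : ℝ := (volume E).toReal with he
  have hae : volume (sweepSet E s) = ENNReal.ofReal a := (ENNReal.ofReal_toReal hA).symm
  have hee : volume E = ENNReal.ofReal e := (ENNReal.ofReal_toReal hE).symm
  have ha0 : 0 ≤ a := ENNReal.toReal_nonneg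
  have he0 : 0 ≤ e := ENNReal.toReal_nonneg
  have key : ∀ m : ℕ, ((m : ℝ) + 1) * dd + m * e ≤ ((m : ℝ) + 1) * a := by
    intro m
    have h := hineq m
    rw [hae, hee] at h
    have e1 : (m : ENNReal) = ENNReal.ofReal (m : ℝ) := (ENNReal.ofReal_natCast m).symm
    have e2 : (m : ENNReal) + 1 = ENNReal.ofReal ((m : ℝ) + 1) := by
      rw [ENNReal.ofReal_add (Nat.cast_nonneg m) zero_le_one, ENNReal.ofReal_natCast,
        ENNReal.ofReal_one]
    rw [e2, e1, ← ENNReal.ofReal_mul (Nat.cast_nonneg m),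
      ← ENNReal.ofReal_mul (by positivity : (0 : ℝ) ≤ (m : ℝ) + 1),
      ← ENNReal.ofReal_add (by positivity) (by positivity)] at h
    exact (ENNReal.ofReal_le_ofReal_iff (by positivity)).1 h
  have hfin : e + dd ≤ a := by
    by_contra hcon
    rw [not_le] at hcon
    obtain ⟨m, hm⟩ := exists_nat_gt ((a - dd) / (dd + e - a))
    have hpos : 0 < dd + e - a := by linarith
    rw [div_lt_iff₀ hpos] at hm
    have := key m
    nlinarith
  rw [hae, hee, ← ENNReal.ofReal_add he0 hdd0]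
  exact ENNReal.ofReal_le_ofReal hfin

end Vale.Agent.Lib.P237
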