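import Mathlib

/-!
# P237 (helper98): algebra of an orthonormal triple in coordinates

If `a`, `b` are orthonormal and the unit vector `u` is orthogonal to both, then `u` is plus or
minus the cross product of `a` and `b`.  The two consequences used for prisms are stated in
coordinates.
-/

namespace Vale.Agent.Lib.P237

theorem triple_alg (a0 a1 a2 b0 b1 b2 u0 u1 u2 : ℝ) (ha : a0 ^ 2 + a1 ^ 2 + a2 ^ 2 = 1)
    (hb : b0 ^ 2 + b1 ^ 2 + b2 ^ 2 = 1) (hab : a0 * b0 + a1 * b1 + a2 * b2 = 0)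
    (hu : u0 ^ 2 + u1 ^ 2 + u2 ^ 2 = 1) (hua : u0 * a0 + u1 * a1 + u2 * a2 = 0)
    (hub : u0 * b0 + u1 * b1 + u2 * b2 = 0) (d0 d1 : ℝ) :
    |u2| = |a0 * b1 - a1 * b0| ∧
      |d0 * u1 - d1 * u0| = |a2 * (b0 * d0 + b1 * d1) - b2 * (a0 * d0 + a1 * d1)| := by
  obtain ⟨c0, hc0⟩ : ∃ c0 : ℝ, c0 = a1 * b2 - a2 * b1 := ⟨_, rfl⟩
  obtain ⟨c1, hc1⟩ : ∃ c1 : ℝ, c1 = a2 * b0 - a0 * b2 := ⟨_, rfl⟩
  obtain ⟨c2, hc2⟩ : ∃ c2 : ℝ, c2 = a0 * b1 - a1 * b0 := ⟨_, rfl⟩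
  have x0 : u1 * c2 - u2 * c1 = 0 := by
    rw [hc1, hc2]; linear_combination a0 * hub - b0 * hua
  have x1 : u2 * c0 - u0 * c2 = 0 := by
    rw [hc0, hc2]; linear_combination a1 * hub - b1 * hua
  have x2 : u0 * c1 - u1 * c0 = 0 := by
    rw [hc0, hc1]; linear_combination a2 * hub - b2 * hua
  have hc : c0 ^ 2 + c1 ^ 2 + c2 ^ 2 = 1 := by
    rw [hc0, hc1, hc2]
    linear_combination (b0 ^ 2 + b1 ^ 2 + b2 ^ 2) * ha + hb
      - (a0 * b0 + a1 * b1 + a2 * b2) * hab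
  obtain ⟨s, hs⟩ : ∃ s : ℝ, s = u0 * c0 + u1 * c1 + u2 * c2 := ⟨_, rfl⟩
  have hs2 : s ^ 2 = 1 := by
    rw [hs]
    linear_combination (c0 ^ 2 + c1 ^ 2 + c2 ^ 2) * hu + hc - (u1 * c2 - u2 * c1) * x0
      - (u2 * c0 - u0 * c2) * x1 - (u0 * c1 - u1 * c0) * x2
  have e0 : u0 = s * c0 := by
    rw [hs]; linear_combination (-u0) * hc + c1 * x2 - c2 * x1
  have e1 : u1 = s * c1 := by
    rw [hs]; linear_combination (-u1) * hc + c2 * x0 - c0 * x2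
  have e2 : u2 = s * c2 := by
    rw [hs]; linear_combination (-u2) * hc + c0 * x1 - c1 * x0
  have hsabs : |s| = 1 := by
    have h : (s - 1) * (s + 1) = 0 := by linear_combination hs2
    rcases mul_eq_zero.1 h with h | h
    · rw [sub_eq_zero.1 h]; exact abs_one
    · rw [eq_neg_of_add_eq_zero_left h]; simp
  constructor
  · rw [e2, abs_mul, hsabs, one_mul, hc2]
  · have e : d0 * u1 - d1 * u0
        = s * (a2 * (b0 * d0 + b1 * d1) - b2 * (a0 * d0 + a1 * d1)) := by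
      rw [e1, e0, hc0, hc1]
      ring
    rw [e, abs_mul, hsabs, one_mul]

end Vale.Agent.Lib.P237
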