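import Mathlib
import Vale.Agent.Lib.P237.helper98.PL

/-!
# P237 (helper98): midpoint Brunn-Minkowski inequality in the plane

Copy of the first part of the team file `Vale/Agent/Lib/P243/CapBM.lean` (the midpoint
Prekopa-Leindler inequality on the plane, the midpoint Brunn-Minkowski inequality for
measurable planar sets and the area of a dilate), placed here so that the P237 files do not
depend on another folder of the team.
-/

namespace Vale.Agent.Lib.P237.BM

open MeasureTheory Set ENNReal

/-- Midpoint Prekopa-Leindler inequality on `ℝ × ℝ`. -/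
theorem pl_prod (f g h : ℝ × ℝ → ℝ≥0∞) (hf : Measurable f) (hg : Measurable g)
    (hh : Measurable h) (H : ∀ x y, f x * g y ≤ h ((1 / 2 : ℝ) • (x + y)) ^ 2) :
    (∫⁻ x, f x) * (∫⁻ x, g x) ≤ (∫⁻ x, h x) ^ 2 := by
  rw [Measure.volume_eq_prod, lintegral_prod _ hf.aemeasurable, lintegral_prod _ hg.aemeasurable,
    lintegral_prod _ hh.aemeasurable]
  refine Vale.Agent.Lib.P237.PL.pl_one _ _ _ hf.lintegral_prod_right' hg.lintegral_prod_right'
    hh.lintegral_prod_right' fun s t => ?_
  refine Vale.Agent.Lib.P237.PL.pl_one _ _ _ (hf.comp (measurable_const.prodMk measurable_id))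
    (hg.comp (measurable_const.prodMk measurable_id))
    (hh.comp (measurable_const.prodMk measurable_id)) fun u w => ?_
  have := H (s, u) (t, w)
  have e : (1 / 2 : ℝ) • ((s, u) + (t, w)) = ((s + t) / 2, (u + w) / 2) := by
    ext <;> simp <;> ring
  rwa [e] at this

/-- Midpoint Brunn-Minkowski (multiplicative form) for measurable planar sets. -/
theorem bm_mid (U V Z : Set (ℝ × ℝ)) (hU : MeasurableSet U) (hV : MeasurableSet V)
    (hZ : MeasurableSet Z) (H : ∀ x ∈ U, ∀ y ∈ V, (1 / 2 : ℝ) • (x + y) ∈ Z) :
    volume U * volume V ≤ volume Z ^ 2 := by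
  have := pl_prod (U.indicator 1) (V.indicator 1) (Z.indicator 1)
    (measurable_one.indicator hU) (measurable_one.indicator hV) (measurable_one.indicator hZ)
    (fun x y => by
      by_cases hx : x ∈ U
      · by_cases hy : y ∈ V
        · rw [Set.indicator_of_mem hx, Set.indicator_of_mem hy,
            Set.indicator_of_mem (H x hx y hy)]
          simp
        · rw [Set.indicator_of_notMem hy]
          simp
      · rw [Set.indicator_of_notMem hx]
        simp)
  rwa [lintegral_indicator_one hU, lintegral_indicator_one hV, lintegral_indicator_one hZ] at this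

open scoped Pointwise

lemma vol_smul (c : ℝ) (S : Set (ℝ × ℝ)) :
    volume (c • S) = ENNReal.ofReal (c ^ 2) * volume S := by
  rw [Measure.addHaar_smul]
  have h2 : Module.finrank ℝ (ℝ × ℝ) = 2 := by simp
  rw [h2, abs_of_nonneg (sq_nonneg c)]

end Vale.Agent.Lib.P237.BM
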