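import Mathlib
import Vale.Agent.Lib.P237.helper98.Defs
import Vale.Agent.Lib.P237.helper98.Sweep
import Vale.Agent.Lib.P237.helper98.Alg
import Vale.Agent.Lib.P237.helper98.BM

/-!
# P237 (helper98): Petty's inequality for right prisms in `R^3`

For a compact convex planar set `D` and `h ≥ 0`, the projection body of the prism
`K = D × [0, h]` contains the cylinder `Z = h R (D - D) × [-|D|, |D|]` (with `R` the rotation
by a right angle), and `|Z| = 2 h^2 |D| |D - D| ≥ 8 h^2 |D|^2 = 8 |K|^2` by the planar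
Brunn-Minkowski inequality.
-/

open MeasureTheory Set
open scoped Pointwise

namespace Vale.Agent.Lib.P237

theorem inner3 (x y : E3) : inner ℝ x y = x 0 * y 0 + x 1 * y 1 + x 2 * y 2 := by
  simp [PiLp.inner_apply, Fin.sum_univ_three]
  ring

theorem norm3 (x : E3) (h : ‖x‖ = 1) : x 0 ^ 2 + x 1 ^ 2 + x 2 ^ 2 = 1 := by
  have h1 : inner ℝ x x = ‖x‖ ^ 2 := real_inner_self_eq_norm_sq x
  rw [inner3, h] at h1
  linarith

/-- The coordinate chart of Euclidean 3-space onto the model product space. -/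
def chart (x : E3) : ℝ × (ℝ × ℝ) := (x 2, (x 0, x 1))

/-- The coordinate chart is measure preserving (adapted from helper6's proof for P243). -/
theorem chart_mp : MeasurePreserving chart volume volume := by
  have h2 : MeasurePreserving (WithLp.ofLp : EuclideanSpace ℝ (Fin 3) → (Fin 3 → ℝ))
      volume volume := PiLp.volume_preserving_ofLp (Fin 3)
  have h3 := volume_preserving_piFinSuccAbove (fun _ : Fin 3 => ℝ) 2
  have h4 : MeasurePreserving (Prod.map id (MeasurableEquiv.finTwoArrow (α := ℝ)))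
      (volume : Measure (ℝ × (Fin 2 → ℝ))) (volume : Measure (ℝ × (ℝ × ℝ))) :=
    (MeasurePreserving.id volume).prod (volume_preserving_finTwoArrow ℝ)
  have h := h4.comp (h3.comp h2)
  have heq : chart
      = (Prod.map id (MeasurableEquiv.finTwoArrow (α := ℝ)))
        ∘ (MeasurableEquiv.piFinSuccAbove (fun _ : Fin 3 => ℝ) 2)
        ∘ (WithLp.ofLp : EuclideanSpace ℝ (Fin 3) → (Fin 3 → ℝ)) := by
    funext x
    have e0 : (2 : Fin 3).succAbove (0 : Fin 2) = 0 := by decide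
    have e1 : (2 : Fin 3).succAbove (1 : Fin 2) = 1 := by decide
    refine Prod.ext ?_ (Prod.ext ?_ ?_)
    · simp [chart, MeasurableEquiv.piFinSuccAbove, MeasurableEquiv.finTwoArrow,
        Fin.insertNthEquiv]
    · simp [chart, MeasurableEquiv.piFinSuccAbove, MeasurableEquiv.finTwoArrow,
        Fin.insertNthEquiv, Fin.removeNth, e0]
    · simp [chart, MeasurableEquiv.piFinSuccAbove, MeasurableEquiv.finTwoArrow,
        Fin.insertNthEquiv, Fin.removeNth, e1]
  rw [heq]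
  exact h

theorem prism_eq (D : Set (ℝ × ℝ)) (h : ℝ) : prism D h = chart ⁻¹' (Icc 0 h ×ˢ D) := by
  ext x
  simp only [prism, chart, mem_ofPred_eq, mem_preimage, mem_prod, mem_Icc]
  tauto

theorem vol_prism (D : Set (ℝ × ℝ)) (hD : MeasurableSet D) (h : ℝ) :
    volume (prism D h) = ENNReal.ofReal h * volume D := by
  rw [prism_eq, chart_mp.measure_preimage (measurableSet_Icc.prod hD).nullMeasurableSet,
    Measure.volume_eq_prod, Measure.prod_prod, Real.volume_Icc, sub_zero]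

/-- The planar linear map induced on the first two coordinates by the pair `a`, `b`. -/
def pm (a b : E3) : ℝ × ℝ → ℝ × ℝ :=
  fun p => (a 0 * p.1 + a 1 * p.2, b 0 * p.1 + b 1 * p.2)

theorem proj_prism (D : Set (ℝ × ℝ)) (h : ℝ) (hh : 0 ≤ h) (a b : E3) :
    (fun x : E3 => ((inner ℝ x a : ℝ), (inner ℝ x b : ℝ))) '' prism D h
      = sweepSet (pm a b '' D) (h * a 2, h * b 2) := by
  ext y
  constructor
  · rintro ⟨x, ⟨hxD, hx0, hxh⟩, rfl⟩
    rcases hh.eq_or_lt with h0 | hpos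
    · have hx2 : x 2 = 0 := by
        rw [← h0] at hxh
        linarith
      refine ⟨_, ⟨(x 0, x 1), hxD, rfl⟩, 0, le_rfl, zero_le_one, ?_⟩
      ext
      · simp only [inner3, pm, hx2, Prod.fst_add, Prod.smul_fst, smul_eq_mul]
        ring
      · simp only [inner3, pm, hx2, Prod.snd_add, Prod.smul_snd, smul_eq_mul]
        ring
    · refine ⟨_, ⟨(x 0, x 1), hxD, rfl⟩, x 2 / h, div_nonneg hx0 hh,
        (div_le_one hpos).2 hxh, ?_⟩
      have hne : h ≠ 0 := hpos.ne'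
      ext
      · simp only [inner3, pm, Prod.fst_add, Prod.smul_fst, smul_eq_mul]
        field_simp
      · simp only [inner3, pm, Prod.snd_add, Prod.smul_snd, smul_eq_mul]
        field_simp
  · rintro ⟨_, ⟨p, hp, rfl⟩, t, ht0, ht1, rfl⟩
    refine ⟨!₂[p.1, p.2, t * h], ⟨?_, ?_, ?_⟩, ?_⟩
    · simpa using hp
    · simpa using mul_nonneg ht0 hh
    · simpa using mul_le_of_le_one_left hh ht1
    · ext
      · simp [inner3, pm]
        ring
      · simp [inner3, pm]
        ring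

theorem projArea_lower (D : Set (ℝ × ℝ)) (hDc : IsCompact D) (hDv : Convex ℝ D) (h : ℝ)
    (hh : 0 ≤ h) (a b : E3) (p q : ℝ × ℝ) (hp : p ∈ D) (hq : q ∈ D) :
    |a 0 * b 1 - a 1 * b 0| * (volume D).toReal
        + h * |a 2 * (b 0 * (p.1 - q.1) + b 1 * (p.2 - q.2))
            - b 2 * (a 0 * (p.1 - q.1) + a 1 * (p.2 - q.2))|
      ≤ projArea (prism D h) a b := by
  unfold projArea
  rw [proj_prism D h hh a b]
  have hTc : Continuous (pm a b) := by
    unfold pm
    fun_prop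
  have hEc : IsCompact (pm a b '' D) := hDc.image hTc
  have hEv : Convex ℝ (pm a b '' D) := by
    have e : pm a b = ⇑(matMap (a 0) (a 1) (b 0) (b 1)) := by
      funext p
      rw [matMap_apply]
      rfl
    rw [e]
    exact hDv.linear_image _
  have hsw := sweep (pm a b '' D) hEc hEv (h * a 2, h * b 2) (pm a b p) (pm a b q)
    ⟨p, hp, rfl⟩ ⟨q, hq, rfl⟩
  have hfin : volume (sweepSet (pm a b '' D) (h * a 2, h * b 2)) ≠ ⊤ :=
    (sweepSet_compact hEc _).measure_lt_top.ne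
  have hvE : volume (pm a b '' D) = ENNReal.ofReal |a 0 * b 1 - a 1 * b 0| * volume D :=
    vol_image_mat (a 0) (a 1) (b 0) (b 1) D
  have hDfin : volume D ≠ ⊤ := hDc.measure_lt_top.ne
  have hEfin : volume (pm a b '' D) ≠ ⊤ := hEc.measure_lt_top.ne
  have h1 := ENNReal.toReal_mono hfin hsw
  rw [ENNReal.toReal_add hEfin ENNReal.ofReal_ne_top, hvE, ENNReal.toReal_mul,
    ENNReal.toReal_ofReal (abs_nonneg _), ENNReal.toReal_ofReal (abs_nonneg _)] at h1
  refine le_trans (le_of_eq ?_) h1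
  congr 1
  have e : (h * a 2, h * b 2).1 * ((pm a b p).2 - (pm a b q).2)
        - (h * a 2, h * b 2).2 * ((pm a b p).1 - (pm a b q).1)
      = h * (a 2 * (b 0 * (p.1 - q.1) + b 1 * (p.2 - q.2))
          - b 2 * (a 0 * (p.1 - q.1) + a 1 * (p.2 - q.2))) := by
    simp only [pm]
    ring
  rw [e, abs_mul, abs_of_nonneg hh]

/-- The planar set `h R (D - D)`, with `R` the rotation by a right angle. -/
def wSet (D : Set (ℝ × ℝ)) (h : ℝ) : Set (ℝ × ℝ) :=
  {w | ∃ p ∈ D, ∃ q ∈ D, w = (-(h * (p.2 - q.2)), h * (p.1 - q.1))}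

/-- The cylinder over `wSet D h` with the vertical segment of half-length `|D|`. -/
def zSet (D : Set (ℝ × ℝ)) (h : ℝ) : Set E3 :=
  {x | (x 0, x 1) ∈ wSet D h ∧ |x 2| ≤ (volume D).toReal}

theorem zSet_subset (D : Set (ℝ × ℝ)) (hDc : IsCompact D) (hDv : Convex ℝ D) (h : ℝ)
    (hh : 0 ≤ h) : zSet D h ⊆ projBody (prism D h) := by
  rintro x ⟨⟨p, hp, q, hq, hw⟩, hx2⟩ a b u ha hb hab hu hua hub
  have hx0 : x 0 = -(h * (p.2 - q.2)) := congrArg Prod.fst hw
  have hx1 : x 1 = h * (p.1 - q.1) := congrArg Prod.snd hw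
  have hlow := projArea_lower D hDc hDv h hh a b p q hp hq
  have A := norm3 a ha
  have B := norm3 b hb
  have U := norm3 u hu
  have AB : a 0 * b 0 + a 1 * b 1 + a 2 * b 2 = 0 := by
    rw [← inner3]
    exact hab
  have UA : u 0 * a 0 + u 1 * a 1 + u 2 * a 2 = 0 := by
    rw [← inner3]
    exact hua
  have UB : u 0 * b 0 + u 1 * b 1 + u 2 * b 2 = 0 := by
    rw [← inner3]
    exact hub
  obtain ⟨t1, t2⟩ := triple_alg (a 0) (a 1) (a 2) (b 0) (b 1) (b 2) (u 0) (u 1) (u 2)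
    A B AB U UA UB (p.1 - q.1) (p.2 - q.2)
  rw [← t1, ← t2] at hlow
  refine le_trans ?_ hlow
  rw [inner3, hx0, hx1]
  have k1 : x 2 * u 2 ≤ |u 2| * (volume D).toReal := by
    calc x 2 * u 2 ≤ |x 2 * u 2| := le_abs_self _
      _ = |x 2| * |u 2| := abs_mul _ _
      _ ≤ (volume D).toReal * |u 2| := by gcongr
      _ = |u 2| * (volume D).toReal := mul_comm _ _
  have k2 : h * ((p.1 - q.1) * u 1 - (p.2 - q.2) * u 0)
      ≤ h * |(p.1 - q.1) * u 1 - (p.2 - q.2) * u 0| :=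
    mul_le_mul_of_nonneg_left (le_abs_self _) hh
  linarith

theorem zSet_eq (D : Set (ℝ × ℝ)) (h : ℝ) :
    zSet D h = chart ⁻¹' (Icc (-(volume D).toReal) (volume D).toReal ×ˢ wSet D h) := by
  ext x
  simp only [zSet, chart, mem_ofPred_eq, mem_preimage, mem_prod, mem_Icc, abs_le]
  tauto

theorem vol_zSet (D : Set (ℝ × ℝ)) (h : ℝ) (hW : MeasurableSet (wSet D h)) :
    volume (zSet D h) = ENNReal.ofReal (2 * (volume D).toReal) * volume (wSet D h) := by
  rw [zSet_eq, chart_mp.measure_preimage (measurableSet_Icc.prod hW).nullMeasurableSet,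
    Measure.volume_eq_prod, Measure.prod_prod, Real.volume_Icc]
  congr 2
  ring

theorem wSet_compact (D : Set (ℝ × ℝ)) (hDc : IsCompact D) (h : ℝ) : IsCompact (wSet D h) := by
  have e : wSet D h = (fun r : (ℝ × ℝ) × (ℝ × ℝ) =>
      (-(h * (r.1.2 - r.2.2)), h * (r.1.1 - r.2.1))) '' (D ×ˢ D) := by
    ext w
    constructor
    · rintro ⟨p, hp, q, hq, rfl⟩
      exact ⟨(p, q), ⟨hp, hq⟩, rfl⟩
    · rintro ⟨⟨p, q⟩, ⟨hp, hq⟩, rfl⟩
      exact ⟨p, hp, q, hq, rfl⟩
  rw [e]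
  exact (hDc.prod hDc).image (by fun_prop)

theorem wSet_bm (D : Set (ℝ × ℝ)) (hDc : IsCompact D) (h : ℝ) :
    ENNReal.ofReal (h ^ 2) * volume D ≤ ENNReal.ofReal (1 / 4) * volume (wSet D h) := by
  have hU : volume ((fun p : ℝ × ℝ => (0 * p.1 + (-h) * p.2, h * p.1 + 0 * p.2)) '' D)
      = ENNReal.ofReal |0 * 0 - (-h) * h| * volume D := vol_image_mat 0 (-h) h 0 D
  have hV : volume ((fun p : ℝ × ℝ => (0 * p.1 + h * p.2, (-h) * p.1 + 0 * p.2)) '' D)
      = ENNReal.ofReal |0 * 0 - h * (-h)| * volume D := vol_image_mat 0 h (-h) 0 D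
  have hc1 : Continuous (fun p : ℝ × ℝ => (0 * p.1 + (-h) * p.2, h * p.1 + 0 * p.2)) := by
    fun_prop
  have hc2 : Continuous (fun p : ℝ × ℝ => (0 * p.1 + h * p.2, (-h) * p.1 + 0 * p.2)) := by
    fun_prop
  have hbm := BM.bm_mid _ _ ((1 / 2 : ℝ) • wSet D h)
    (hDc.image hc1).measurableSet (hDc.image hc2).measurableSet
    ((wSet_compact D hDc h).smul (1 / 2 : ℝ)).measurableSet (by
      rintro _ ⟨p, hp, rfl⟩ _ ⟨q, hq, rfl⟩
      refine Set.smul_mem_smul_set ⟨p, hp, q, hq, ?_⟩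
      ext
      · simp only [Prod.fst_add]
        ring
      · simp only [Prod.snd_add]
        ring)
  rw [hU, hV, BM.vol_smul] at hbm
  have e1 : |(0 : ℝ) * 0 - (-h) * h| = h ^ 2 := by
    rw [show (0 : ℝ) * 0 - (-h) * h = h ^ 2 by ring]
    exact abs_of_nonneg (sq_nonneg h)
  have e2 : |(0 : ℝ) * 0 - h * (-h)| = h ^ 2 := by
    rw [show (0 : ℝ) * 0 - h * (-h) = h ^ 2 by ring]
    exact abs_of_nonneg (sq_nonneg h)
  rw [e1, e2, ← sq] at hbm
  have h3 := (ENNReal.pow_le_pow_left_iff two_ne_zero).1 hbm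
  have e3 : ((1 : ℝ) / 2) ^ 2 = 1 / 4 := by norm_num
  rw [e3] at h3
  exact h3

/-- Petty's inequality for right prisms with the prism constant `8`. -/
theorem prism_petty (D : Set (ℝ × ℝ)) (hDc : IsCompact D) (hDv : Convex ℝ D) (h : ℝ)
    (hh : 0 ≤ h) : 8 * volume (prism D h) ^ 2 ≤ volume (projBody (prism D h)) := by
  have hW := wSet_compact D hDc h
  refine le_trans ?_ (measure_mono (zSet_subset D hDc hDv h hh))
  rw [vol_zSet D h hW.measurableSet, vol_prism D hDc.measurableSet h]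
  have hbm := wSet_bm D hDc h
  obtain ⟨v, hv⟩ : ∃ v : ℝ, v = (volume D).toReal := ⟨_, rfl⟩
  obtain ⟨w, hw⟩ : ∃ w : ℝ, w = (volume (wSet D h)).toReal := ⟨_, rfl⟩
  have hDv' : volume D = ENNReal.ofReal v := by
    rw [hv]
    exact (ENNReal.ofReal_toReal hDc.measure_lt_top.ne).symm
  have hWv : volume (wSet D h) = ENNReal.ofReal w := by
    rw [hw]
    exact (ENNReal.ofReal_toReal hW.measure_lt_top.ne).symm
  have hv0 : 0 ≤ v := by
    rw [hv]
    exact ENNReal.toReal_nonneg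
  have hw0 : 0 ≤ w := by
    rw [hw]
    exact ENNReal.toReal_nonneg
  rw [← hv, hDv', hWv]
  rw [hDv', hWv, ← ENNReal.ofReal_mul (sq_nonneg h),
    ← ENNReal.ofReal_mul (by norm_num : (0 : ℝ) ≤ 1 / 4)] at hbm
  have hbm' : h ^ 2 * v ≤ 1 / 4 * w := (ENNReal.ofReal_le_ofReal_iff (by positivity)).1 hbm
  have e8 : (8 : ENNReal) = ENNReal.ofReal 8 := by simp
  rw [← ENNReal.ofReal_mul hh, ← ENNReal.ofReal_pow (mul_nonneg hh hv0),
    ← ENNReal.ofReal_mul (by positivity : (0 : ℝ) ≤ 2 * v), e8,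
    ← ENNReal.ofReal_mul (by norm_num : (0 : ℝ) ≤ 8)]
  apply ENNReal.ofReal_le_ofReal
  have := mul_le_mul_of_nonneg_left hbm' hv0
  nlinarith

end Vale.Agent.Lib.P237
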