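import Mathlib
import Vale.Agent.Lib.P237.helper98.PL

/-!
# P237 (helper98): brightness, projection bodies and cylinders in every dimension

For a measure `μ` on a real vector space, `bright μ K u` is the gain of measure when `K` is
swept along the segment from `0` to `u`; for a convex body `K` and Lebesgue measure this is
`|u|` times the `(n-1)`-dimensional volume of the projection of `K` along `u` (Cavalieri), so
`pbody μ B K = {x | ∀ u, B x u ≤ bright μ K u}` is the projection body of `K` when `B` is the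
inner product.  The main result here: for a compact set `D` in a finite-dimensional space `V`
with Haar measure `μ`, the projection body of the cylinder `D × [0, h]` in `V × ℝ` contains
`h • pbody μ B D × [-μ D, μ D]`, hence has measure at least `2 h^n μ(D) μ(pbody μ B D)`,
`n = dim V`.  The proof uses Tonelli on `V × ℝ` and the one-dimensional Brunn-Minkowski
inequality on the sections.
-/

open MeasureTheory Set
open scoped Pointwise

namespace Vale.Agent.Lib.P237

/-- `bright μ K u`: the brightness of `K` in the direction `u`, defined as the gain of measure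
when `K` is swept along the segment from `0` to `u`. -/
noncomputable def bright {V : Type*} [AddCommGroup V] [Module ℝ V] [MeasurableSpace V]
    (μ : Measure V) (K : Set V) (u : V) : ℝ :=
  (μ (K + segment ℝ 0 u)).toReal - (μ K).toReal

/-- `pbody μ B K`: the projection body of `K` with respect to the measure `μ` and pairing `B`. -/
def pbody {V : Type*} [AddCommGroup V] [Module ℝ V] [MeasurableSpace V]
    (μ : Measure V) (B : V → V → ℝ) (K : Set V) : Set V :=
  {x | ∀ u, B x u ≤ bright μ K u}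

section Cyl

variable {V : Type*} [NormedAddCommGroup V] [NormedSpace ℝ V] [FiniteDimensional ℝ V]
  [MeasurableSpace V] [BorelSpace V]

theorem isCompact_seg' {W : Type*} [NormedAddCommGroup W] [NormedSpace ℝ W] (a b : W) :
    IsCompact (segment ℝ a b) := by
  rw [segment_eq_image]
  exact isCompact_Icc.image (by fun_prop)

theorem smul_mem_seg {W : Type*} [AddCommGroup W] [Module ℝ W] (u : W) (t : ℝ) (h0 : 0 ≤ t)
    (h1 : t ≤ 1) : t • u ∈ segment ℝ 0 u := by
  rw [segment_eq_image]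
  exact ⟨t, ⟨h0, h1⟩, by simp⟩

theorem prod_sweep_ge (μ : Measure V) [μ.IsAddHaarMeasure] (D : Set V) (hD : IsCompact D)
    (h : ℝ) (hh : 0 ≤ h) (v : V) (s : ℝ) :
    ENNReal.ofReal h * μ (D + segment ℝ 0 v) + ENNReal.ofReal |s| * μ D
      ≤ (μ.prod volume) (D ×ˢ Icc (0:ℝ) h + segment ℝ (0 : V × ℝ) (v, s)) := by
  set S : Set (V × ℝ) := D ×ˢ Icc (0:ℝ) h + segment ℝ (0 : V × ℝ) (v, s) with hSdef
  have hS : IsCompact S := (hD.prod isCompact_Icc).add (isCompact_seg' _ _)
  set G : Set (V × ℝ) := {p | p.2 ∈ Icc (0:ℝ) 1 ∧ p.1 - p.2 • v ∈ D} with hGdef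
  have hGc : IsClosed G := by
    have h1 : IsClosed {p : V × ℝ | p.2 ∈ Icc (0:ℝ) 1} := isClosed_Icc.preimage continuous_snd
    have h2 : IsClosed {p : V × ℝ | p.1 - p.2 • v ∈ D} :=
      hD.isClosed.preimage (by fun_prop)
    exact h1.inter h2
  have hG : MeasurableSet G := hGc.measurableSet
  have hE : MeasurableSet (D + segment ℝ 0 v) := (hD.add (isCompact_seg' _ _)).measurableSet
  -- pointwise bound on sections
  have hpt : ∀ x : V, (D + segment ℝ 0 v).indicator (fun _ => ENNReal.ofReal h) x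
      + ENNReal.ofReal |s| * volume (Prod.mk x ⁻¹' G) ≤ volume (Prod.mk x ⁻¹' S) := by
    intro x
    have hsub : s • (Prod.mk x ⁻¹' G) + Icc (0:ℝ) h ⊆ Prod.mk x ⁻¹' S := by
      rintro _ ⟨_, ⟨t, ⟨⟨ht0, ht1⟩, htD⟩, rfl⟩, a, ha, rfl⟩
      refine ⟨(x - t • v, a), ⟨htD, ha⟩, t • (v, s), smul_mem_seg _ t ht0 ht1, ?_⟩
      ext
      · simp
      · simp [mul_comm, add_comm]
    by_cases hx : (Prod.mk x ⁻¹' G).Nonempty
    · have hxE : x ∈ D + segment ℝ 0 v := by
        obtain ⟨t, ⟨ht0, ht1⟩, htD⟩ := hx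
        exact ⟨x - t • v, htD, t • v, smul_mem_seg _ t ht0 ht1, by simp⟩
      rw [indicator_of_mem hxE]
      have hΛc : IsCompact (Prod.mk x ⁻¹' G) := by
        have e : Prod.mk x ⁻¹' G = Icc (0:ℝ) 1 ∩ (fun t : ℝ => x - t • v) ⁻¹' D := by
          ext t
          rfl
        rw [e]
        exact isCompact_Icc.inter_right (hD.isClosed.preimage (by fun_prop))
      have hbm := PL.bm_compact (s • (Prod.mk x ⁻¹' G)) (Icc (0:ℝ) h) (hΛc.smul s) isCompact_Icc
        hx.smul_set (nonempty_Icc.2 hh)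
      have hsm : volume (s • (Prod.mk x ⁻¹' G)) = ENNReal.ofReal |s| * volume (Prod.mk x ⁻¹' G) := by
        rw [Measure.addHaar_smul]
        simp
      rw [hsm, Real.volume_Icc, sub_zero] at hbm
      calc ENNReal.ofReal h + ENNReal.ofReal |s| * volume (Prod.mk x ⁻¹' G)
          = ENNReal.ofReal |s| * volume (Prod.mk x ⁻¹' G) + ENNReal.ofReal h := add_comm _ _
        _ ≤ volume (s • (Prod.mk x ⁻¹' G) + Icc (0:ℝ) h) := hbm
        _ ≤ volume (Prod.mk x ⁻¹' S) := measure_mono hsub
    · rw [not_nonempty_iff_eq_empty] at hx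
      rw [hx, measure_empty, mul_zero, add_zero]
      by_cases hxE : x ∈ D + segment ℝ 0 v
      · exfalso
        obtain ⟨d, hd, w, hw, rfl⟩ := hxE
        rw [segment_eq_image] at hw
        obtain ⟨t, ht, rfl⟩ := hw
        have : t ∈ Prod.mk (d + ((1 - t) • (0:V) + t • v)) ⁻¹' G := by
          refine ⟨ht, ?_⟩
          show d + ((1 - t) • (0:V) + t • v) - t • v ∈ D
          simpa using hd
        rw [hx] at this
        exact this
      · rw [indicator_of_notMem hxE]
        exact zero_le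
  -- the integral of the section measure of G
  have hGint : ∫⁻ x, volume (Prod.mk x ⁻¹' G) ∂μ = μ D := by
    rw [← Measure.prod_apply hG, Measure.prod_apply_symm hG]
    have e : ∀ t : ℝ, μ ((fun x : V => (x, t)) ⁻¹' G) = (Icc (0:ℝ) 1).indicator (fun _ => μ D) t := by
      intro t
      by_cases ht : t ∈ Icc (0:ℝ) 1
      · rw [indicator_of_mem ht]
        have e2 : (fun x : V => (x, t)) ⁻¹' G = (fun x : V => x + -(t • v)) ⁻¹' D := by
          ext x
          simp only [hGdef, mem_preimage, mem_ofPred_eq, sub_eq_add_neg]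
          exact ⟨fun hx => hx.2, fun hx => ⟨ht, hx⟩⟩
        rw [e2, measure_preimage_add_right]
      · rw [indicator_of_notMem ht]
        have e2 : (fun x : V => (x, t)) ⁻¹' G = ∅ := by
          ext x
          simp only [hGdef, mem_preimage, mem_ofPred_eq, mem_empty_iff_false, iff_false]
          exact fun hx => ht hx.1
        rw [e2, measure_empty]
    simp_rw [e]
    rw [lintegral_indicator_const measurableSet_Icc, Real.volume_Icc]
    simp
  calc ENNReal.ofReal h * μ (D + segment ℝ 0 v) + ENNReal.ofReal |s| * μ D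
      = ∫⁻ x, ((D + segment ℝ 0 v).indicator (fun _ => ENNReal.ofReal h) x
          + ENNReal.ofReal |s| * volume (Prod.mk x ⁻¹' G)) ∂μ := by
        rw [lintegral_add_left (measurable_const.indicator hE),
          lintegral_indicator_const hE, lintegral_const_mul _ (measurable_measure_prodMk_left hG),
          hGint]
    _ ≤ ∫⁻ x, volume (Prod.mk x ⁻¹' S) ∂μ := lintegral_mono hpt
    _ = (μ.prod volume) S := (Measure.prod_apply hS.measurableSet).symm

theorem bright_cyl_ge (μ : Measure V) [μ.IsAddHaarMeasure] (D : Set V) (hD : IsCompact D)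
    (h : ℝ) (hh : 0 ≤ h) (v : V) (s : ℝ) :
    h * bright μ D v + |s| * (μ D).toReal
      ≤ bright (μ.prod volume) (D ×ˢ Icc (0:ℝ) h) (v, s) := by
  unfold bright
  have key := prod_sweep_ge μ D hD h hh v s
  have hfin1 : μ (D + segment ℝ 0 v) ≠ ⊤ := (hD.add (isCompact_seg' _ _)).measure_lt_top.ne
  have hfin2 : μ D ≠ ⊤ := hD.measure_lt_top.ne
  have hfin3 : (μ.prod volume) (D ×ˢ Icc (0:ℝ) h + segment ℝ (0 : V × ℝ) (v, s)) ≠ ⊤ :=
    ((hD.prod isCompact_Icc).add (isCompact_seg' _ _)).measure_lt_top.ne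
  have hK : (μ.prod volume) (D ×ˢ Icc (0:ℝ) h) = μ D * ENNReal.ofReal h := by
    rw [Measure.prod_prod, Real.volume_Icc, sub_zero]
  have h1 := ENNReal.toReal_mono hfin3 key
  rw [ENNReal.toReal_add (ENNReal.mul_ne_top ENNReal.ofReal_ne_top hfin1)
      (ENNReal.mul_ne_top ENNReal.ofReal_ne_top hfin2), ENNReal.toReal_mul, ENNReal.toReal_mul,
    ENNReal.toReal_ofReal hh, ENNReal.toReal_ofReal (abs_nonneg s)] at h1
  rw [hK, ENNReal.toReal_mul, ENNReal.toReal_ofReal hh]
  linarith [mul_comm h (μ D).toReal]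

theorem pbody_cyl_subset (μ : Measure V) [μ.IsAddHaarMeasure] (B : V → V → ℝ)
    (hB : ∀ (c : ℝ) (x u : V), B (c • x) u = c * B x u) (D : Set V) (hD : IsCompact D)
    (h : ℝ) (hh : 0 ≤ h) :
    {z : V × ℝ | z.1 ∈ h • pbody μ B D ∧ |z.2| ≤ (μ D).toReal}
      ⊆ pbody (μ.prod volume) (fun z u => B z.1 u.1 + z.2 * u.2) (D ×ˢ Icc (0:ℝ) h) := by
  rintro ⟨y, r⟩ ⟨hy, hr⟩ ⟨v, s⟩
  obtain ⟨y₀, hy₀, hyeq⟩ := hy
  have hyeq' : h • y₀ = y := hyeq
  have hr' : |r| ≤ (μ D).toReal := hr
  have h1 := hy₀ v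
  have h2 := bright_cyl_ge μ D hD h hh v s
  show B y v + r * s ≤ bright (μ.prod volume) (D ×ˢ Icc (0:ℝ) h) (v, s)
  rw [← hyeq', hB]
  have h3 : r * s ≤ |s| * (μ D).toReal := by
    calc r * s ≤ |r * s| := le_abs_self _
      _ = |r| * |s| := abs_mul _ _
      _ ≤ (μ D).toReal * |s| := by gcongr
      _ = |s| * (μ D).toReal := mul_comm _ _
  have h4 : h * B y₀ v ≤ h * bright μ D v := mul_le_mul_of_nonneg_left h1 hh
  linarith

theorem vol_cyl_set (μ : Measure V) [μ.IsAddHaarMeasure] (P : Set V) (h : ℝ) (hh : 0 ≤ h)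
    (m : ℝ) :
    (μ.prod volume) {z : V × ℝ | z.1 ∈ h • P ∧ |z.2| ≤ m}
      = ENNReal.ofReal (h ^ Module.finrank ℝ V) * μ P * ENNReal.ofReal (2 * m) := by
  have e : {z : V × ℝ | z.1 ∈ h • P ∧ |z.2| ≤ m} = (h • P) ×ˢ Icc (-m) m := by
    ext z
    simp only [mem_ofPred_eq, mem_prod, mem_Icc, abs_le]
  rw [e, Measure.prod_prod, Measure.addHaar_smul, Real.volume_Icc,
    abs_of_nonneg (pow_nonneg hh _)]
  congr 2
  ring

/-- The cylinder step: the projection body of `D × [0, h]` has measure at least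
`2 h^n μ(D) μ(pbody μ B D)`, where `n` is the dimension of `V`. -/
theorem cyl_main (μ : Measure V) [μ.IsAddHaarMeasure] (B : V → V → ℝ)
    (hB : ∀ (c : ℝ) (x u : V), B (c • x) u = c * B x u) (D : Set V) (hD : IsCompact D)
    (h : ℝ) (hh : 0 ≤ h) :
    2 * ENNReal.ofReal (h ^ Module.finrank ℝ V) * μ D * μ (pbody μ B D)
      ≤ (μ.prod volume)
          (pbody (μ.prod volume) (fun z u => B z.1 u.1 + z.2 * u.2) (D ×ˢ Icc (0:ℝ) h)) := by
  refine le_trans (le_of_eq ?_) (measure_mono (pbody_cyl_subset μ B hB D hD h hh))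
  rw [vol_cyl_set μ _ h hh, ENNReal.ofReal_mul (by norm_num : (0:ℝ) ≤ 2),
    ENNReal.ofReal_toReal hD.measure_lt_top.ne]
  have e2 : ENNReal.ofReal 2 = 2 := by simp
  rw [e2]
  ring

end Cyl

end Vale.Agent.Lib.P237
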