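import Mathlib

/-!
# P237 (helper98): definitions for boxes over planar convex sets in every dimension

`R^N` is modelled by `Fin N → ℝ` with Lebesgue measure and the dot product.
-/

open MeasureTheory Set
open scoped Pointwise

namespace Vale.Agent.Lib.P237

/-- The standard dot product on `R^N = Fin N → ℝ`. -/
def dotN {N : ℕ} (x u : Fin N → ℝ) : ℝ := ∑ i, x i * u i

/-- Lebesgue measure of a subset of `R^N = Fin N → ℝ`. -/
noncomputable def volN {N : ℕ} (S : Set (Fin N → ℝ)) : ENNReal := volume S

/-- The projection body of `K ⊆ R^N` in brightness form: the set of `x` with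
`x · u ≤ vol (K + [0, u]) - vol K` for every `u`, where `[0, u]` is the segment from `0` to
`u`.  For a compact convex `K` the right-hand side is `|u|` times the `(N-1)`-dimensional
volume of the orthogonal projection of `K` along `u` (Cavalieri), which is the support
function of the projection body of `K`. -/
def projBodyN {N : ℕ} (K : Set (Fin N → ℝ)) : Set (Fin N → ℝ) :=
  {x | ∀ u, dotN x u ≤ (volN (K + segment ℝ 0 u)).toReal - (volN K).toReal}

/-- The box over a planar set `D` with heights `h`: the points of `R^(2+n)` whose first two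
coordinates form a point of `D` and whose coordinate number `2 + i` lies in `[0, h i]`. -/
def boxOver (D : Set (ℝ × ℝ)) (n : ℕ) (h : Fin n → ℝ) : Set (Fin (2 + n) → ℝ) :=
  {x | (x (Fin.castAdd n 0), x (Fin.castAdd n 1)) ∈ D ∧
    ∀ i : Fin n, x (Fin.natAdd 2 i) ∈ Icc (0:ℝ) (h i)}

/-- `kappa m`: the Lebesgue volume of the Euclidean unit ball of `R^m`. -/
noncomputable def kappa (m : ℕ) : ENNReal :=
  volume (Metric.ball (0 : EuclideanSpace ℝ (Fin m)) 1)

end Vale.Agent.Lib.P237
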