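import Mathlib
import Vale.Agent.Lib.P237.helper98.Bright
import Vale.Agent.Lib.P237.helper98.Sweep
import Vale.Agent.Lib.P237.helper98.Prism

/-!
# P237 (helper98): cylinders over planar convex sets in dimensions three and four

The planar base case (`pbody volume dot2 D` contains the rotated difference body of `D`, of
area at least `4 |D|` by Brunn-Minkowski) combined with the cylinder step gives the bounds
`|Π K| ≥ 8 |K|^2` for `K = D × [0, h]` and `|Π K| ≥ 16 |K|^3` for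
`K = D × [0, h₁] × [0, h₂]`.
-/

open MeasureTheory Set
open scoped Pointwise

namespace Vale.Agent.Lib.P237

/-- The standard inner product of the plane `ℝ × ℝ`. -/
def dot2 (x u : ℝ × ℝ) : ℝ := x.1 * u.1 + x.2 * u.2

/-- The standard inner product of `(ℝ × ℝ) × ℝ`, a model of `R^3`. -/
def dot3 (x u : (ℝ × ℝ) × ℝ) : ℝ := dot2 x.1 u.1 + x.2 * u.2

/-- The standard inner product of `((ℝ × ℝ) × ℝ) × ℝ`, a model of `R^4`. -/
def dot4 (x u : ((ℝ × ℝ) × ℝ) × ℝ) : ℝ := dot3 x.1 u.1 + x.2 * u.2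

theorem dot2_smul (c : ℝ) (x u : ℝ × ℝ) : dot2 (c • x) u = c * dot2 x u := by
  unfold dot2
  simp only [Prod.smul_fst, Prod.smul_snd, smul_eq_mul]
  ring

theorem dot3_smul (c : ℝ) (x u : (ℝ × ℝ) × ℝ) : dot3 (c • x) u = c * dot3 x u := by
  unfold dot3
  simp only [Prod.smul_fst, Prod.smul_snd, smul_eq_mul, dot2_smul]
  ring

theorem sweepSet_eq_add (E : Set (ℝ × ℝ)) (s : ℝ × ℝ) : sweepSet E s = E + segment ℝ 0 s := by
  ext x
  constructor
  · rintro ⟨e, he, t, h0, h1, rfl⟩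
    exact ⟨e, he, t • s, smul_mem_seg s t h0 h1, rfl⟩
  · rintro ⟨e, he, w, hw, rfl⟩
    rw [segment_eq_image] at hw
    obtain ⟨t, ⟨h0, h1⟩, rfl⟩ := hw
    exact ⟨e, he, t, h0, h1, by simp⟩

theorem bright_planar_ge (D : Set (ℝ × ℝ)) (hDc : IsCompact D) (hDv : Convex ℝ D)
    (u p q : ℝ × ℝ) (hp : p ∈ D) (hq : q ∈ D) :
    |u.1 * (p.2 - q.2) - u.2 * (p.1 - q.1)| ≤ bright volume D u := by
  unfold bright
  have hsw := sweep D hDc hDv u p q hp hq
  rw [sweepSet_eq_add] at hsw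
  have hfin : volume (D + segment ℝ 0 u) ≠ ⊤ :=
    (hDc.add (isCompact_seg' _ _)).measure_lt_top.ne
  have h1 := ENNReal.toReal_mono hfin hsw
  rw [ENNReal.toReal_add hDc.measure_lt_top.ne ENNReal.ofReal_ne_top,
    ENNReal.toReal_ofReal (abs_nonneg _)] at h1
  linarith

theorem wSet_subset_pbody (D : Set (ℝ × ℝ)) (hDc : IsCompact D) (hDv : Convex ℝ D) :
    wSet D 1 ⊆ pbody volume dot2 D := by
  rintro w ⟨p, hp, q, hq, rfl⟩ u
  have h1 := bright_planar_ge D hDc hDv u p q hp hq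
  refine le_trans ?_ h1
  have e : dot2 (-(1 * (p.2 - q.2)), 1 * (p.1 - q.1)) u
      = -(u.1 * (p.2 - q.2) - u.2 * (p.1 - q.1)) := by
    unfold dot2
    ring
  rw [e]
  exact neg_le_abs _

/-- Planar base case: the projection body of a compact convex planar set has area at least
four times the area of the set. -/
theorem planar_pbody_ge (D : Set (ℝ × ℝ)) (hDc : IsCompact D) (hDv : Convex ℝ D) :
    4 * volume D ≤ volume (pbody volume dot2 D) := by
  refine le_trans ?_ (measure_mono (wSet_subset_pbody D hDc hDv))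
  have hbm := wSet_bm D hDc 1
  rw [one_pow, ENNReal.ofReal_one, one_mul] at hbm
  have h4 : (4 : ENNReal) * ENNReal.ofReal (1 / 4) = 1 := by
    have e4 : (4 : ENNReal) = ENNReal.ofReal 4 := by simp
    rw [e4, ← ENNReal.ofReal_mul (by norm_num)]
    norm_num
  calc 4 * volume D ≤ 4 * (ENNReal.ofReal (1 / 4) * volume (wSet D 1)) := by gcongr
    _ = volume (wSet D 1) := by rw [← mul_assoc, h4, one_mul]

/-- Dimension three: the projection body of the prism `D × [0, h]`. -/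
theorem dim3_ge (D : Set (ℝ × ℝ)) (hDc : IsCompact D) (hDv : Convex ℝ D) (h : ℝ)
    (hh : 0 ≤ h) :
    8 * ENNReal.ofReal (h ^ 2) * volume D ^ 2
      ≤ volume (pbody volume dot3 (D ×ˢ Icc (0:ℝ) h)) := by
  have hc := cyl_main (volume : Measure (ℝ × ℝ)) dot2 dot2_smul D hDc h hh
  have hfr : Module.finrank ℝ (ℝ × ℝ) = 2 := by simp
  rw [hfr] at hc
  refine le_trans ?_ hc
  calc 8 * ENNReal.ofReal (h ^ 2) * volume D ^ 2
      = 2 * ENNReal.ofReal (h ^ 2) * volume D * (4 * volume D) := by ring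
    _ ≤ 2 * ENNReal.ofReal (h ^ 2) * volume D * volume (pbody volume dot2 D) := by
        gcongr
        exact planar_pbody_ge D hDc hDv

theorem haar3 : (volume : Measure ((ℝ × ℝ) × ℝ)).IsAddHaarMeasure :=
  inferInstanceAs (((volume : Measure (ℝ × ℝ)).prod (volume : Measure ℝ)).IsAddHaarMeasure)

/-- Dimension four: the projection body of the box `D × [0, h₁] × [0, h₂]` over a planar
compact convex set. -/
theorem dim4_ge (D : Set (ℝ × ℝ)) (hDc : IsCompact D) (hDv : Convex ℝ D) (h₁ h₂ : ℝ)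
    (hh₁ : 0 ≤ h₁) (hh₂ : 0 ≤ h₂) :
    16 * volume ((D ×ˢ Icc (0:ℝ) h₁) ×ˢ Icc (0:ℝ) h₂) ^ 3
      ≤ volume (pbody volume dot4 ((D ×ˢ Icc (0:ℝ) h₁) ×ˢ Icc (0:ℝ) h₂)) := by
  have hD' : IsCompact (D ×ˢ Icc (0:ℝ) h₁) := hDc.prod isCompact_Icc
  have := haar3
  have hc := cyl_main (volume : Measure ((ℝ × ℝ) × ℝ)) dot3 dot3_smul (D ×ˢ Icc (0:ℝ) h₁) hD'
    h₂ hh₂
  have hfr : Module.finrank ℝ ((ℝ × ℝ) × ℝ) = 3 := by simp
  rw [hfr] at hc
  refine le_trans ?_ hc
  have hv1 : (volume : Measure ((ℝ × ℝ) × ℝ)) (D ×ˢ Icc (0:ℝ) h₁)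
      = volume D * ENNReal.ofReal h₁ := by
    rw [Measure.volume_eq_prod, Measure.prod_prod, Real.volume_Icc, sub_zero]
  have hv2 : (volume : Measure (((ℝ × ℝ) × ℝ) × ℝ)) ((D ×ˢ Icc (0:ℝ) h₁) ×ˢ Icc (0:ℝ) h₂)
      = volume D * ENNReal.ofReal h₁ * ENNReal.ofReal h₂ := by
    rw [Measure.volume_eq_prod, Measure.prod_prod, Real.volume_Icc, sub_zero, hv1]
  have h3 := dim3_ge D hDc hDv h₁ hh₁
  rw [hv2, hv1]
  calc 16 * (volume D * ENNReal.ofReal h₁ * ENNReal.ofReal h₂) ^ 3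
      = 2 * ENNReal.ofReal (h₂ ^ 3) * (volume D * ENNReal.ofReal h₁)
          * (8 * ENNReal.ofReal (h₁ ^ 2) * volume D ^ 2) := by
        rw [ENNReal.ofReal_pow hh₂, ENNReal.ofReal_pow hh₁]
        ring
    _ ≤ 2 * ENNReal.ofReal (h₂ ^ 3) * (volume D * ENNReal.ofReal h₁)
          * volume (pbody volume dot3 (D ×ˢ Icc (0:ℝ) h₁)) := by
        gcongr

end Vale.Agent.Lib.P237
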