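import Mathlib
import Vale.Agent.Lib.P237.helper98.Bright
import Vale.Agent.Lib.P237.helper98.Tower
import Vale.Agent.Lib.P237.helper98.BoxDefs

/-!
# P237 (helper98): boxes over planar convex sets in every dimension

`R^N` is modelled by `Fin N → ℝ` with Lebesgue measure `volume` and the dot product `dotN`
(definitions in `BoxDefs.lean`).  The projection body is `pbody volume dotN K` (see
`Bright.lean`), which is `projBodyN K` of `BoxDefs.lean` by unfolding.
-/

open MeasureTheory Set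
open scoped Pointwise

namespace Vale.Agent.Lib.P237

/-- The brightness-form projection body of `BoxDefs.lean` is `pbody volume dotN`. -/
theorem projBodyN_eq {N : ℕ} (K : Set (Fin N → ℝ)) : projBodyN K = pbody volume dotN K := rfl

section Transfer

variable {W V' : Type*} [AddCommGroup W] [Module ℝ W] [MeasurableSpace W]
  [AddCommGroup V'] [Module ℝ V'] [MeasurableSpace V']

theorem seg_zero_mem {X : Type*} [AddCommGroup X] [Module ℝ X] (u s : X)
    (hs : s ∈ segment ℝ 0 u) : ∃ t : ℝ, 0 ≤ t ∧ t ≤ 1 ∧ s = t • u := by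
  rw [segment_eq_image] at hs
  obtain ⟨t, ht, rfl⟩ := hs
  exact ⟨t, ht.1, ht.2, by simp⟩

theorem sweep_preimage (e : W ≃ᵐ V') (hadd : ∀ x y, e (x + y) = e x + e y)
    (hsmul : ∀ (c : ℝ) x, e (c • x) = c • e x) (K : Set V') (u : W) :
    e ⁻¹' K + segment ℝ 0 u = e ⁻¹' (K + segment ℝ 0 (e u)) := by
  ext y
  constructor
  · rintro ⟨a, ha, s, hs, rfl⟩
    obtain ⟨t, h0, h1, rfl⟩ := seg_zero_mem u s hs
    show e (a + t • u) ∈ K + segment ℝ 0 (e u)
    rw [hadd, hsmul]
    exact ⟨e a, ha, t • e u, smul_mem_seg (e u) t h0 h1, rfl⟩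
  · rintro ⟨k, hk, s, hs, hks⟩
    obtain ⟨t, h0, h1, rfl⟩ := seg_zero_mem (e u) s hs
    have hks' : k + t • e u = e y := hks
    refine ⟨e.symm k, ?_, t • u, smul_mem_seg u t h0 h1, ?_⟩
    · show e (e.symm k) ∈ K
      rw [e.apply_symm_apply]
      exact hk
    · apply e.injective
      show e (e.symm k + t • u) = e y
      rw [hadd, hsmul, e.apply_symm_apply, hks']

theorem bright_transfer (μ : Measure W) (ν : Measure V') (e : W ≃ᵐ V')
    (hadd : ∀ x y, e (x + y) = e x + e y) (hsmul : ∀ (c : ℝ) x, e (c • x) = c • e x)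
    (hmp : MeasurePreserving e μ ν) (K : Set V') (u : W) :
    bright μ (e ⁻¹' K) u = bright ν K (e u) := by
  unfold bright
  rw [sweep_preimage e hadd hsmul, hmp.measure_preimage_equiv, hmp.measure_preimage_equiv]

theorem pbody_transfer (μ : Measure W) (ν : Measure V') (e : W ≃ᵐ V')
    (hadd : ∀ x y, e (x + y) = e x + e y) (hsmul : ∀ (c : ℝ) x, e (c • x) = c • e x)
    (hmp : MeasurePreserving e μ ν) (BW : W → W → ℝ) (B' : V' → V' → ℝ)
    (hB : ∀ x u, BW x u = B' (e x) (e u)) (K : Set V') :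
    μ (pbody μ BW (e ⁻¹' K)) = ν (pbody ν B' K) := by
  have hset : pbody μ BW (e ⁻¹' K) = e ⁻¹' (pbody ν B' K) := by
    ext x
    constructor
    · intro hx v
      obtain ⟨u, rfl⟩ := e.surjective v
      rw [← hB, ← bright_transfer μ ν e hadd hsmul hmp]
      exact hx u
    · intro hx u
      rw [hB, bright_transfer μ ν e hadd hsmul hmp]
      exact hx (e u)
  rw [hset, hmp.measure_preimage_equiv]

end Transfer

/-- Splitting off the last coordinate. -/
noncomputable def eS (N : ℕ) : (Fin (N + 1) → ℝ) ≃ᵐ (Fin N → ℝ) × ℝ :=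
  (MeasurableEquiv.piFinSuccAbove (fun _ => ℝ) (Fin.last N)).trans MeasurableEquiv.prodComm

theorem eS_apply (N : ℕ) (x : Fin (N + 1) → ℝ) :
    eS N x = (fun j => x (Fin.castSucc j), x (Fin.last N)) := by
  unfold eS
  ext j
  · simp [MeasurableEquiv.piFinSuccAbove]
    rfl
  · simp [MeasurableEquiv.piFinSuccAbove]
    rfl

theorem eS_add (N : ℕ) (x y : Fin (N + 1) → ℝ) : eS N (x + y) = eS N x + eS N y := by
  rw [eS_apply, eS_apply, eS_apply]
  rfl

theorem eS_smul (N : ℕ) (c : ℝ) (x : Fin (N + 1) → ℝ) : eS N (c • x) = c • eS N x := by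
  rw [eS_apply, eS_apply]
  rfl

theorem eS_mp (N : ℕ) :
    MeasurePreserving (eS N) (volume : Measure (Fin (N + 1) → ℝ))
      ((volume : Measure (Fin N → ℝ)).prod (volume : Measure ℝ)) := by
  have h1 := volume_preserving_piFinSuccAbove (fun _ : Fin (N + 1) => ℝ) (Fin.last N)
  have h2 : MeasurePreserving (Prod.swap : ℝ × (Fin N → ℝ) → (Fin N → ℝ) × ℝ)
      ((volume : Measure ℝ).prod (volume : Measure (Fin N → ℝ)))
      ((volume : Measure (Fin N → ℝ)).prod (volume : Measure ℝ)) :=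
    Measure.measurePreserving_swap
  exact h2.comp h1

theorem eS_dot (N : ℕ) (x u : Fin (N + 1) → ℝ) :
    dotN x u = dotN (eS N x).1 (eS N u).1 + (eS N x).2 * (eS N u).2 := by
  rw [eS_apply, eS_apply]
  unfold dotN
  rw [Fin.sum_univ_castSucc]

theorem dotN_smul {N : ℕ} (c : ℝ) (x u : Fin N → ℝ) : dotN (c • x) u = c * dotN x u := by
  unfold dotN
  rw [Finset.mul_sum]
  refine Finset.sum_congr rfl fun i _ => ?_
  simp only [Pi.smul_apply, smul_eq_mul]
  ring

theorem eS_symm_cont (N : ℕ) : Continuous (eS N).symm := by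
  have h : ((eS N).symm : (Fin N → ℝ) × ℝ → (Fin (N + 1) → ℝ))
      = fun p => (Fin.last N).insertNth p.2 p.1 := by
    funext p
    rfl
  rw [h]
  exact Continuous.finInsertNth (Fin.last N) continuous_snd continuous_fst

theorem compact_preimage {X Y : Type*} [TopologicalSpace X] [TopologicalSpace Y]
    [MeasurableSpace X] [MeasurableSpace Y] (e : X ≃ᵐ Y) (he : Continuous e.symm) (S : Set Y)
    (hS : IsCompact S) : IsCompact (e ⁻¹' S) := by
  rw [← MeasurableEquiv.image_symm]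
  exact hS.image he

/-- The box with `n + 1` heights is the cylinder over the box with `n` heights. -/
theorem box_succ (D : Set (ℝ × ℝ)) (n : ℕ) (h : Fin (n + 1) → ℝ) :
    boxOver D (n + 1) h
      = eS (2 + n) ⁻¹' (boxOver D n (fun i => h i.castSucc) ×ˢ Icc (0:ℝ) (h (Fin.last n))) := by
  ext x
  rw [mem_preimage, eS_apply]
  simp only [boxOver, mem_ofPred_eq, mem_prod]
  rw [Fin.forall_fin_succ']
  constructor
  · rintro ⟨h1, h2, h3⟩
    refine ⟨⟨h1, fun i => ?_⟩, ?_⟩
    · have := h2 i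
      rw [Fin.natAdd_castSucc] at this
      exact this
    · rw [Fin.natAdd_last] at h3
      exact h3
  · rintro ⟨⟨h1, h2⟩, h3⟩
    refine ⟨h1, fun i => ?_, ?_⟩
    · rw [Fin.natAdd_castSucc]
      exact h2 i
    · rw [Fin.natAdd_last]
      exact h3

theorem box_zero (D : Set (ℝ × ℝ)) (h : Fin 0 → ℝ) :
    boxOver D 0 h = (MeasurableEquiv.finTwoArrow : (Fin 2 → ℝ) ≃ᵐ ℝ × ℝ) ⁻¹' D := by
  ext x
  simp only [boxOver, mem_ofPred_eq, mem_preimage]
  constructor
  · rintro ⟨h1, -⟩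
    exact h1
  · intro h1
    exact ⟨h1, fun i => i.elim0⟩

theorem e0_symm_cont :
    Continuous (MeasurableEquiv.finTwoArrow : (Fin 2 → ℝ) ≃ᵐ ℝ × ℝ).symm := by
  have h : ((MeasurableEquiv.finTwoArrow : (Fin 2 → ℝ) ≃ᵐ ℝ × ℝ).symm : ℝ × ℝ → (Fin 2 → ℝ))
      = (Homeomorph.finTwoArrow : (Fin 2 → ℝ) ≃ₜ ℝ × ℝ).symm := by
    funext p
    rfl
  rw [h]
  exact (Homeomorph.finTwoArrow : (Fin 2 → ℝ) ≃ₜ ℝ × ℝ).symm.continuous

theorem e0_dot (x u : Fin 2 → ℝ) :
    dotN x u = dot2 ((MeasurableEquiv.finTwoArrow : (Fin 2 → ℝ) ≃ᵐ ℝ × ℝ) x)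
      ((MeasurableEquiv.finTwoArrow : (Fin 2 → ℝ) ≃ᵐ ℝ × ℝ) u) := by
  unfold dotN dot2
  rw [Fin.sum_univ_two]
  rfl

/-- Boxes over planar compact convex sets, in every dimension: compactness and the bound
`2^N |K|^(N-1) ≤ |Π K|`, `N = 2 + n`. -/
theorem box_main (D : Set (ℝ × ℝ)) (hDc : IsCompact D) (hDv : Convex ℝ D) :
    ∀ (n : ℕ) (h : Fin n → ℝ), (∀ i, 0 ≤ h i) →
      IsCompact (boxOver D n h) ∧
        2 ^ (2 + n) * volume (boxOver D n h) ^ (1 + n)
          ≤ volume (pbody volume dotN (boxOver D n h)) := by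
  intro n
  induction n with
  | zero =>
    intro h _
    have hmp := volume_preserving_finTwoArrow ℝ
    refine ⟨?_, ?_⟩
    · rw [box_zero]
      exact compact_preimage _ e0_symm_cont D hDc
    · rw [box_zero]
      rw [pbody_transfer volume volume (MeasurableEquiv.finTwoArrow : (Fin 2 → ℝ) ≃ᵐ ℝ × ℝ)
        (fun _ _ => rfl) (fun _ _ => rfl) hmp dotN dot2 e0_dot D, hmp.measure_preimage_equiv]
      have h4 := planar_pbody_ge D hDc hDv
      calc 2 ^ (2 + 0) * volume D ^ (1 + 0) = 4 * volume D := by norm_num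
        _ ≤ _ := h4
  | succ n ih =>
    intro h hh
    obtain ⟨hAc, hA⟩ := ih (fun i => h i.castSucc) (fun i => hh _)
    set A := boxOver D n (fun i => h i.castSucc) with hAdef
    set l := h (Fin.last n) with hldef
    have hl : 0 ≤ l := hh _
    have hmp := eS_mp (2 + n)
    refine ⟨?_, ?_⟩
    · rw [box_succ]
      exact compact_preimage _ (eS_symm_cont _) _ (hAc.prod isCompact_Icc)
    · rw [box_succ]
      rw [pbody_transfer volume (volume.prod volume) (eS (2 + n)) (eS_add _) (eS_smul _) hmp dotN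
        (fun z u => dotN z.1 u.1 + z.2 * u.2) (eS_dot _) (A ×ˢ Icc (0:ℝ) l),
        hmp.measure_preimage_equiv, Measure.prod_prod, Real.volume_Icc, sub_zero]
      have hc := cyl_main (volume : Measure (Fin (2 + n) → ℝ)) dotN dotN_smul A hAc l hl
      have hfr : Module.finrank ℝ (Fin (2 + n) → ℝ) = 2 + n := Module.finrank_fin_fun ℝ
      rw [hfr, ENNReal.ofReal_pow hl] at hc
      refine le_trans ?_ hc
      calc 2 ^ (2 + (n + 1)) * (volume A * ENNReal.ofReal l) ^ (1 + (n + 1))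
          = 2 * ENNReal.ofReal l ^ (2 + n) * volume A * (2 ^ (2 + n) * volume A ^ (1 + n)) := by
            ring
        _ ≤ 2 * ENNReal.ofReal l ^ (2 + n) * volume A * volume (pbody volume dotN A) := by
            gcongr

end Vale.Agent.Lib.P237
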