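import Mathlib
import Vale.Agent.Lib.P237.helper98.AllDim

/-!
# P237 (helper98): from the bound `2^N` to Petty's constant

`kapR m = sqrt(pi)^m / Gamma(m/2 + 1)` is the volume of the unit ball of `R^m`.  Given the
numerical inequality `kapR (N-1) ^ N ≤ 2 ^ N * kapR N ^ (N-2)` (`N = 2 + n`), the bound
`2^N |K|^(N-1) ≤ |Π K|` for boxes over planar convex sets implies Petty's inequality
`κ_(N-1)^N |K|^(N-1) ≤ κ_N^(N-2) |Π K|`.
-/

open MeasureTheory Set
open scoped Pointwise

namespace Vale.Agent.Lib.P237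

/-- The volume of the unit ball of `R^m`, as a real number. -/
noncomputable def kapR (m : ℕ) : ℝ := Real.sqrt Real.pi ^ m / Real.Gamma ((m : ℝ) / 2 + 1)

theorem kapR_pos (m : ℕ) : 0 < kapR m := by
  unfold kapR
  apply div_pos (by positivity)
  exact Real.Gamma_pos_of_pos (by positivity)

theorem ball_vol (m : ℕ) (hm : 1 ≤ m) : kappa m = ENNReal.ofReal (kapR m) := by
  unfold kappa
  have : Nonempty (Fin m) := ⟨⟨0, by omega⟩⟩
  rw [EuclideanSpace.volume_ball (Fin m) (0 : EuclideanSpace ℝ (Fin m)) 1]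
  simp only [ENNReal.ofReal_one, one_pow, one_mul, Fintype.card_fin]
  rfl

theorem two_pow_ofReal (k : ℕ) : (2 : ENNReal) ^ k = ENNReal.ofReal (2 ^ k) := by
  rw [ENNReal.ofReal_pow (by norm_num)]
  simp

/-- Petty's inequality for boxes over planar convex sets, given the constant comparison. -/
theorem box_petty (D : Set (ℝ × ℝ)) (hDc : IsCompact D) (hDv : Convex ℝ D) (n : ℕ)
    (h : Fin n → ℝ) (hh : ∀ i, 0 ≤ h i)
    (hk : kapR (1 + n) ^ (2 + n) ≤ 2 ^ (2 + n) * kapR (2 + n) ^ n) :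
    kappa (1 + n) ^ (2 + n)
        * volume (boxOver D n h) ^ (1 + n)
      ≤ kappa (2 + n) ^ n
        * volume (pbody volume dotN (boxOver D n h)) := by
  obtain ⟨-, h1⟩ := box_main D hDc hDv n h hh
  rw [ball_vol (1 + n) (by omega), ball_vol (2 + n) (by omega)]
  have hE : ENNReal.ofReal (kapR (1 + n)) ^ (2 + n)
      ≤ 2 ^ (2 + n) * ENNReal.ofReal (kapR (2 + n)) ^ n := by
    rw [← ENNReal.ofReal_pow (kapR_pos _).le, ← ENNReal.ofReal_pow (kapR_pos _).le,
      two_pow_ofReal, ← ENNReal.ofReal_mul (by positivity)]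
    exact ENNReal.ofReal_le_ofReal hk
  calc ENNReal.ofReal (kapR (1 + n)) ^ (2 + n) * volume (boxOver D n h) ^ (1 + n)
      ≤ 2 ^ (2 + n) * ENNReal.ofReal (kapR (2 + n)) ^ n * volume (boxOver D n h) ^ (1 + n) := by
        gcongr
    _ = ENNReal.ofReal (kapR (2 + n)) ^ n * (2 ^ (2 + n) * volume (boxOver D n h) ^ (1 + n)) := by
        ring
    _ ≤ ENNReal.ofReal (kapR (2 + n)) ^ n * volume (pbody volume dotN (boxOver D n h)) := by
        gcongr

/-- Strict form, given the strict constant comparison. -/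
theorem box_petty_lt (D : Set (ℝ × ℝ)) (hDc : IsCompact D) (hDv : Convex ℝ D) (n : ℕ)
    (h : Fin n → ℝ) (hh : ∀ i, 0 ≤ h i)
    (hk : kapR (1 + n) ^ (2 + n) < 2 ^ (2 + n) * kapR (2 + n) ^ n)
    (hpos : 0 < volume (boxOver D n h)) :
    kappa (1 + n) ^ (2 + n)
        * volume (boxOver D n h) ^ (1 + n)
      < kappa (2 + n) ^ n
        * volume (pbody volume dotN (boxOver D n h)) := by
  obtain ⟨hKc, h1⟩ := box_main D hDc hDv n h hh
  rw [ball_vol (1 + n) (by omega), ball_vol (2 + n) (by omega)]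
  have hE : ENNReal.ofReal (kapR (1 + n)) ^ (2 + n)
      < 2 ^ (2 + n) * ENNReal.ofReal (kapR (2 + n)) ^ n := by
    rw [← ENNReal.ofReal_pow (kapR_pos _).le, ← ENNReal.ofReal_pow (kapR_pos _).le,
      two_pow_ofReal, ← ENNReal.ofReal_mul (by positivity)]
    exact (ENNReal.ofReal_lt_ofReal_iff (by
      have := kapR_pos (2 + n)
      positivity)).2 hk
  have hfin : volume (boxOver D n h) ≠ ⊤ := hKc.measure_lt_top.ne
  have hx0 : volume (boxOver D n h) ^ (1 + n) ≠ 0 := pow_ne_zero _ hpos.ne'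
  have hxt : volume (boxOver D n h) ^ (1 + n) ≠ ⊤ := ENNReal.pow_ne_top hfin
  calc ENNReal.ofReal (kapR (1 + n)) ^ (2 + n) * volume (boxOver D n h) ^ (1 + n)
      < 2 ^ (2 + n) * ENNReal.ofReal (kapR (2 + n)) ^ n * volume (boxOver D n h) ^ (1 + n) :=
        (ENNReal.mul_lt_mul_iff_left hx0 hxt).2 hE
    _ = ENNReal.ofReal (kapR (2 + n)) ^ n * (2 ^ (2 + n) * volume (boxOver D n h) ^ (1 + n)) := by
        ring
    _ ≤ ENNReal.ofReal (kapR (2 + n)) ^ n * volume (pbody volume dotN (boxOver D n h)) := by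
        gcongr

end Vale.Agent.Lib.P237
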