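import Mathlib
import Vale.Agent.Lib.P237.helper98.Defs

/-!
# P237 (helper98): monotonicity of the projection body

If `L ⊆ K` and `K` is compact, then every projection of `L` has at most the area of the
corresponding projection of `K`, so the projection body of `L` is contained in that of `K`.
-/

open MeasureTheory Set

namespace Vale.Agent.Lib.P237

theorem projArea_mono {K L : Set E3} (hKL : L ⊆ K) (hK : IsCompact K) (a b : E3) :
    projArea L a b ≤ projArea K a b := by
  unfold projArea
  have hc : Continuous (fun x : E3 => ((inner ℝ x a : ℝ), (inner ℝ x b : ℝ))) := by
    fun_prop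
  exact ENNReal.toReal_mono (hK.image hc).measure_lt_top.ne (measure_mono (image_mono hKL))

theorem projBody_mono {K L : Set E3} (hKL : L ⊆ K) (hK : IsCompact K) :
    projBody L ⊆ projBody K := by
  intro x hx a b u ha hb hab hu hua hub
  exact le_trans (hx a b u ha hb hab hu hua hub) (projArea_mono hKL hK a b)

end Vale.Agent.Lib.P237
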