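import Mathlib
import Vale.Agent.Lib.P237.helper98.BoxDefs

/-!
# P237 (helper98): definitions for products of convex sets in every dimension

`R^N` is `Fin N → ℝ` as in `BoxDefs.lean` (`volN`, `dotN`, `projBodyN`, `kappa`).
-/

open MeasureTheory Set

namespace Vale.Agent.Lib.P237

/-- The product of `K1 ⊆ R^a` and `K2 ⊆ R^b` as a subset of `R^(a+b)`: the points whose first
`a` coordinates form a point of `K1` and whose last `b` coordinates form a point of `K2`. -/
def prodN {a b : ℕ} (K1 : Set (Fin a → ℝ)) (K2 : Set (Fin b → ℝ)) : Set (Fin (a + b) → ℝ) :=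
  {x | (fun i => x (Fin.castAdd b i)) ∈ K1 ∧ (fun j => x (Fin.natAdd a j)) ∈ K2}

/-- Petty's inequality `|Π K| ≥ κ_(N-1)^N κ_N^(2-N) |K|^(N-1)` for `K ⊆ R^N`, multiplied
through by `κ_N^N`. -/
def pettyN (N : ℕ) (K : Set (Fin N → ℝ)) : Prop :=
  kappa (N - 1) ^ N * kappa N ^ 2 * volN K ^ (N - 1) ≤ kappa N ^ N * volN (projBodyN K)

/-- The class of finite products of planar compact convex sets and segments: it contains every
compact convex subset of `R^2`, every nonempty compact convex subset of `R^1`, and with `K1`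
and `K2` their product `prodN K1 K2`. -/
inductive ProdClass : (N : ℕ) → Set (Fin N → ℝ) → Prop
  | planar (D : Set (Fin 2 → ℝ)) (hc : IsCompact D) (hv : Convex ℝ D) : ProdClass 2 D
  | segment (I : Set (Fin 1 → ℝ)) (hc : IsCompact I) (hv : Convex ℝ I) (h0 : I.Nonempty) :
      ProdClass 1 I
  | prod {a b : ℕ} {K1 : Set (Fin a → ℝ)} {K2 : Set (Fin b → ℝ)} (h1 : ProdClass a K1)
      (h2 : ProdClass b K2) : ProdClass (a + b) (prodN K1 K2)

end Vale.Agent.Lib.P237
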