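import Mathlib
import Vale.Agent.Lib.P237.helper98.Const
import Vale.Agent.Lib.P237.helper98.ProdDefs

/-!
# P237 (helper98): products in the model `Fin N → ℝ`

Transfer of the product inequality for projection bodies from `(Fin a → ℝ) × (Fin b → ℝ)` to
`Fin (a + b) → ℝ`, and the inheritance of Petty's inequality by products, given the comparison
of constants.
-/

open MeasureTheory Set
open scoped Pointwise

namespace Vale.Agent.Lib.P237

/-- Splitting `R^(a+b)` into `R^a × R^b`. -/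
noncomputable def eP (a b : ℕ) : (Fin (a + b) → ℝ) ≃ᵐ (Fin a → ℝ) × (Fin b → ℝ) :=
  (MeasurableEquiv.piCongrLeft (fun _ : Fin (a + b) => ℝ) finSumFinEquiv).symm.trans
    (MeasurableEquiv.sumPiEquivProdPi (fun _ : Fin a ⊕ Fin b => ℝ))

theorem eP_apply (a b : ℕ) (x : Fin (a + b) → ℝ) :
    eP a b x = (fun i => x (Fin.castAdd b i), fun j => x (Fin.natAdd a j)) := by
  unfold eP
  ext i
  · simp [MeasurableEquiv.piCongrLeft, MeasurableEquiv.sumPiEquivProdPi, Equiv.piCongrLeft,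
      Equiv.sumPiEquivProdPi]
  · simp [MeasurableEquiv.piCongrLeft, MeasurableEquiv.sumPiEquivProdPi, Equiv.piCongrLeft,
      Equiv.sumPiEquivProdPi]

theorem eP_add (a b : ℕ) (x y : Fin (a + b) → ℝ) : eP a b (x + y) = eP a b x + eP a b y := by
  rw [eP_apply, eP_apply, eP_apply]
  rfl

theorem eP_smul (a b : ℕ) (c : ℝ) (x : Fin (a + b) → ℝ) : eP a b (c • x) = c • eP a b x := by
  rw [eP_apply, eP_apply]
  rfl

theorem eP_mp (a b : ℕ) :
    MeasurePreserving (eP a b) (volume : Measure (Fin (a + b) → ℝ))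
      ((volume : Measure (Fin a → ℝ)).prod (volume : Measure (Fin b → ℝ))) := by
  have h1 := (volume_measurePreserving_piCongrLeft (fun _ : Fin (a + b) => ℝ)
    (finSumFinEquiv : Fin a ⊕ Fin b ≃ Fin (a + b))).symm
  have h2 := volume_measurePreserving_sumPiEquivProdPi (fun _ : Fin a ⊕ Fin b => ℝ)
  exact h2.comp h1

theorem eP_dot (a b : ℕ) (x u : Fin (a + b) → ℝ) :
    dotN x u = dotN (eP a b x).1 (eP a b u).1 + dotN (eP a b x).2 (eP a b u).2 := by
  rw [eP_apply, eP_apply]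
  unfold dotN
  rw [Fin.sum_univ_add]

theorem prodN_eq {a b : ℕ} (K1 : Set (Fin a → ℝ)) (K2 : Set (Fin b → ℝ)) :
    prodN K1 K2 = eP a b ⁻¹' (K1 ×ˢ K2) := by
  ext x
  rw [mem_preimage, eP_apply]
  rfl

theorem eP_symm_apply (a b : ℕ) (p : (Fin a → ℝ) × (Fin b → ℝ)) :
    (eP a b).symm p = Fin.append p.1 p.2 := by
  apply (eP a b).injective
  rw [MeasurableEquiv.apply_symm_apply, eP_apply]
  ext j
  · simp
  · simp

theorem eP_symm_cont (a b : ℕ) : Continuous (eP a b).symm := by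
  have h : ((eP a b).symm : (Fin a → ℝ) × (Fin b → ℝ) → (Fin (a + b) → ℝ))
      = fun p => Fin.append p.1 p.2 := by
    funext p
    exact eP_symm_apply a b p
  rw [h]
  refine continuous_pi fun k => ?_
  induction k using Fin.addCases with
  | left i =>
    simp only [Fin.append_left]
    exact (continuous_apply i).comp continuous_fst
  | right j =>
    simp only [Fin.append_right]
    exact (continuous_apply j).comp continuous_snd

theorem prodN_compact {a b : ℕ} (K1 : Set (Fin a → ℝ)) (K2 : Set (Fin b → ℝ))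
    (h1 : IsCompact K1) (h2 : IsCompact K2) : IsCompact (prodN K1 K2) := by
  rw [prodN_eq]
  exact compact_preimage (eP a b) (eP_symm_cont a b) _ (h1.prod h2)

theorem prodN_convex {a b : ℕ} (K1 : Set (Fin a → ℝ)) (K2 : Set (Fin b → ℝ))
    (h1 : Convex ℝ K1) (h2 : Convex ℝ K2) : Convex ℝ (prodN K1 K2) := by
  intro x hx y hy s t hs ht hst
  exact ⟨h1 hx.1 hy.1 hs ht hst, h2 hx.2 hy.2 hs ht hst⟩

theorem volN_prodN {a b : ℕ} (K1 : Set (Fin a → ℝ)) (K2 : Set (Fin b → ℝ)) :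
    volN (prodN K1 K2) = volN K1 * volN K2 := by
  unfold volN
  rw [prodN_eq, (eP_mp a b).measure_preimage_equiv, Measure.prod_prod]

/-- Transfer of the product inequality to the model `Fin (a + b) → ℝ`. -/
theorem prodN_ge {a b : ℕ} (K1 : Set (Fin a → ℝ)) (K2 : Set (Fin b → ℝ))
    (hprod : volume K2 ^ a * volume K1 ^ b * volume (pbody volume dotN K1)
        * volume (pbody volume dotN K2)
      ≤ ((volume : Measure (Fin a → ℝ)).prod (volume : Measure (Fin b → ℝ)))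
          (pbody ((volume : Measure (Fin a → ℝ)).prod (volume : Measure (Fin b → ℝ)))
            (fun z w => dotN z.1 w.1 + dotN z.2 w.2) (K1 ×ˢ K2))) :
    volN K2 ^ a * volN K1 ^ b * volN (projBodyN K1) * volN (projBodyN K2)
      ≤ volN (projBodyN (prodN K1 K2)) := by
  have h := pbody_transfer volume (volume.prod volume) (eP a b) (eP_add a b) (eP_smul a b)
    (eP_mp a b) dotN (fun z w => dotN z.1 w.1 + dotN z.2 w.2) (eP_dot a b) (K1 ×ˢ K2)
  show volume K2 ^ a * volume K1 ^ b * volume (pbody volume dotN K1)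
      * volume (pbody volume dotN K2) ≤ volume (pbody volume dotN (prodN K1 K2))
  rw [prodN_eq, h]
  exact hprod

/-- The volume of the unit ball of `R^0` is `1`. -/
theorem kappa_zero : kappa 0 = 1 := by
  unfold kappa
  have h : Metric.ball (0 : EuclideanSpace ℝ (Fin 0)) 1 = Set.univ := by
    ext x
    simp [Subsingleton.elim x 0]
  rw [h]
  have h1 := (EuclideanSpace.volume_preserving_symm_measurableEquiv_toLp
    (Fin 0)).measure_preimage_equiv Set.univ
  rw [Set.preimage_univ] at h1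
  rw [h1]
  have h2 : (Set.univ : Set (Fin 0 → ℝ)) = Set.pi Set.univ (fun _ => Set.univ) := by simp
  rw [h2, volume_pi, Measure.pi_pi]
  simp

theorem kappa_eq (m : ℕ) : kappa m = ENNReal.ofReal (kapR m) := by
  rcases Nat.eq_zero_or_pos m with h | h
  · subst h
    rw [kappa_zero]
    unfold kapR
    simp
  · exact ball_vol m h

theorem kappa_ne_zero (m : ℕ) : kappa m ≠ 0 := by
  rw [kappa_eq]
  exact (ENNReal.ofReal_pos.2 (kapR_pos m)).ne'

theorem kappa_ne_top (m : ℕ) : kappa m ≠ ⊤ := by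
  rw [kappa_eq]
  exact ENNReal.ofReal_ne_top

theorem ofReal_conv (x1 x2 x3 x4 x5 x6 : ℝ) (h1 : 0 < x1) (h2 : 0 < x2) (h3 : 0 < x3)
    (h4 : 0 < x4) (h5 : 0 < x5) (h6 : 0 < x6) (n1 n3 n4 : ℕ)
    (h : x1 ^ n1 * x2 ^ 2 * (x3 ^ n3 * x4 ^ n4)
      ≤ x2 ^ n1 * (x5 ^ n3 * x3 ^ 2) * (x6 ^ n4 * x4 ^ 2)) :
    ENNReal.ofReal x1 ^ n1 * ENNReal.ofReal x2 ^ 2
        * (ENNReal.ofReal x3 ^ n3 * ENNReal.ofReal x4 ^ n4)
      ≤ ENNReal.ofReal x2 ^ n1 * (ENNReal.ofReal x5 ^ n3 * ENNReal.ofReal x3 ^ 2)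
        * (ENNReal.ofReal x6 ^ n4 * ENNReal.ofReal x4 ^ 2) := by
  have hL : ENNReal.ofReal (x1 ^ n1 * x2 ^ 2 * (x3 ^ n3 * x4 ^ n4))
      = ENNReal.ofReal x1 ^ n1 * ENNReal.ofReal x2 ^ 2
        * (ENNReal.ofReal x3 ^ n3 * ENNReal.ofReal x4 ^ n4) := by
    rw [ENNReal.ofReal_mul (by positivity), ENNReal.ofReal_mul (by positivity),
      ENNReal.ofReal_mul (by positivity), ENNReal.ofReal_pow h1.le, ENNReal.ofReal_pow h2.le,
      ENNReal.ofReal_pow h3.le, ENNReal.ofReal_pow h4.le]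
  have hR : ENNReal.ofReal (x2 ^ n1 * (x5 ^ n3 * x3 ^ 2) * (x6 ^ n4 * x4 ^ 2))
      = ENNReal.ofReal x2 ^ n1 * (ENNReal.ofReal x5 ^ n3 * ENNReal.ofReal x3 ^ 2)
        * (ENNReal.ofReal x6 ^ n4 * ENNReal.ofReal x4 ^ 2) := by
    rw [ENNReal.ofReal_mul (by positivity), ENNReal.ofReal_mul (by positivity),
      ENNReal.ofReal_mul (by positivity), ENNReal.ofReal_mul (by positivity),
      ENNReal.ofReal_pow h2.le, ENNReal.ofReal_pow h5.le, ENNReal.ofReal_pow h3.le,
      ENNReal.ofReal_pow h6.le, ENNReal.ofReal_pow h4.le]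
  rw [← hL, ← hR]
  exact ENNReal.ofReal_le_ofReal h

/-- Inheritance of Petty's inequality by products, given the product inequality and the
comparison of the constants. -/
theorem petty_prod (p q : ℕ) (K1 : Set (Fin (p + 1) → ℝ)) (K2 : Set (Fin (q + 1) → ℝ))
    (hP : volN K2 ^ (p + 1) * volN K1 ^ (q + 1) * volN (projBodyN K1) * volN (projBodyN K2)
      ≤ volN (projBodyN (prodN K1 K2)))
    (hC : kapR (p + q + 1) ^ (p + q + 2) * kapR (p + q + 2) ^ 2
        * (kapR (p + 1) ^ (p + 1) * kapR (q + 1) ^ (q + 1))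
      ≤ kapR (p + q + 2) ^ (p + q + 2) * (kapR p ^ (p + 1) * kapR (p + 1) ^ 2)
        * (kapR q ^ (q + 1) * kapR (q + 1) ^ 2))
    (h1 : pettyN (p + 1) K1) (h2 : pettyN (q + 1) K2) :
    pettyN (p + 1 + (q + 1)) (prodN K1 K2) := by
  unfold pettyN at h1 h2 ⊢
  have e1 : p + 1 - 1 = p := by omega
  have e2 : q + 1 - 1 = q := by omega
  have e3 : p + 1 + (q + 1) - 1 = p + q + 1 := by omega
  have e4 : p + 1 + (q + 1) = p + q + 2 := by omega
  rw [e1] at h1
  rw [e2] at h2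
  rw [e3, volN_prodN]
  have hCE : kappa (p + q + 1) ^ (p + q + 2) * kappa (p + q + 2) ^ 2
        * (kappa (p + 1) ^ (p + 1) * kappa (q + 1) ^ (q + 1))
      ≤ kappa (p + q + 2) ^ (p + q + 2) * (kappa p ^ (p + 1) * kappa (p + 1) ^ 2)
        * (kappa q ^ (q + 1) * kappa (q + 1) ^ 2) := by
    simp only [kappa_eq]
    exact ofReal_conv _ _ _ _ _ _ (kapR_pos _) (kapR_pos _) (kapR_pos _) (kapR_pos _)
      (kapR_pos _) (kapR_pos _) _ _ _ hC
  set v1 := volN K1
  set v2 := volN K2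
  set P1 := volN (projBodyN K1)
  set P2 := volN (projBodyN K2)
  set P := volN (projBodyN (prodN K1 K2))
  rw [show kappa (p + 1 + (q + 1)) = kappa (p + q + 2) from by rw [e4]]
  -- cancel the factor `kappa (p+1) ^ (p+1) * kappa (q+1) ^ (q+1)`
  have hE0 : kappa (p + 1) ^ (p + 1) * kappa (q + 1) ^ (q + 1) ≠ 0 :=
    mul_ne_zero (pow_ne_zero _ (kappa_ne_zero _)) (pow_ne_zero _ (kappa_ne_zero _))
  have hEt : kappa (p + 1) ^ (p + 1) * kappa (q + 1) ^ (q + 1) ≠ ⊤ :=
    ENNReal.mul_ne_top (ENNReal.pow_ne_top (kappa_ne_top _)) (ENNReal.pow_ne_top (kappa_ne_top _))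
  refine (ENNReal.mul_le_mul_iff_right hE0 hEt).1 ?_
  calc kappa (p + 1) ^ (p + 1) * kappa (q + 1) ^ (q + 1)
        * (kappa (p + q + 1) ^ (p + 1 + (q + 1)) * kappa (p + q + 2) ^ 2
          * (v1 * v2) ^ (p + q + 1))
      = (kappa (p + q + 1) ^ (p + q + 2) * kappa (p + q + 2) ^ 2
          * (kappa (p + 1) ^ (p + 1) * kappa (q + 1) ^ (q + 1))) * (v1 * v2) ^ (p + q + 1) := by
        rw [e4]
        ring
    _ ≤ (kappa (p + q + 2) ^ (p + q + 2) * (kappa p ^ (p + 1) * kappa (p + 1) ^ 2)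
          * (kappa q ^ (q + 1) * kappa (q + 1) ^ 2)) * (v1 * v2) ^ (p + q + 1) := by
        gcongr
    _ = kappa (p + q + 2) ^ (p + q + 2)
          * ((kappa p ^ (p + 1) * kappa (p + 1) ^ 2 * v1 ^ p)
            * (kappa q ^ (q + 1) * kappa (q + 1) ^ 2 * v2 ^ q)) * (v2 ^ (p + 1) * v1 ^ (q + 1)) := by
        ring
    _ ≤ kappa (p + q + 2) ^ (p + q + 2)
          * ((kappa (p + 1) ^ (p + 1) * P1) * (kappa (q + 1) ^ (q + 1) * P2))
          * (v2 ^ (p + 1) * v1 ^ (q + 1)) := by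
        gcongr
    _ = kappa (p + 1) ^ (p + 1) * kappa (q + 1) ^ (q + 1)
          * (kappa (p + q + 2) ^ (p + q + 2) * (v2 ^ (p + 1) * v1 ^ (q + 1) * P1 * P2)) := by
        ring
    _ ≤ kappa (p + 1) ^ (p + 1) * kappa (q + 1) ^ (q + 1)
          * (kappa (p + q + 2) ^ (p + 1 + (q + 1)) * P) := by
        rw [e4]
        gcongr

end Vale.Agent.Lib.P237
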