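import Mathlib
import Vale.Agent.Lib.P237.helper98.ProdAll

/-!
# P237 (helper98): base cases for products

Petty's inequality in the form `pettyN` for planar compact convex sets (`N = 2`) and for
nonempty compact subsets of the line (`N = 1`).
-/

open MeasureTheory Set
open scoped Pointwise

namespace Vale.Agent.Lib.P237

theorem kapR_one : kapR 1 = 2 := by
  unfold kapR
  have h : Real.Gamma (((1 : ℕ) : ℝ) / 2 + 1) = Real.sqrt Real.pi / 2 := by
    rw [Nat.cast_one, Real.Gamma_add_one (by norm_num), Real.Gamma_one_half_eq]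
    ring
  rw [h, pow_one]
  have hs : 0 < Real.sqrt Real.pi := Real.sqrt_pos.mpr Real.pi_pos
  field_simp

theorem kappa_one : kappa 1 = 2 := by
  rw [kappa_eq, kapR_one]
  simp

/-- Planar base case: every compact convex subset of `R^2` satisfies Petty's inequality
(in dimension two the constant is `4`). -/
theorem petty_planar (D : Set (Fin 2 → ℝ)) (hDc : IsCompact D) (hDv : Convex ℝ D) :
    pettyN 2 D := by
  have hcont : Continuous (MeasurableEquiv.finTwoArrow : (Fin 2 → ℝ) ≃ᵐ ℝ × ℝ) := by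
    have hf : ((MeasurableEquiv.finTwoArrow : (Fin 2 → ℝ) ≃ᵐ ℝ × ℝ) : (Fin 2 → ℝ) → ℝ × ℝ)
        = fun x => (x 0, x 1) := rfl
    rw [hf]
    fun_prop
  have hD'c : IsCompact ((MeasurableEquiv.finTwoArrow : (Fin 2 → ℝ) ≃ᵐ ℝ × ℝ) '' D) :=
    hDc.image hcont
  have hD'v : Convex ℝ ((MeasurableEquiv.finTwoArrow : (Fin 2 → ℝ) ≃ᵐ ℝ × ℝ) '' D) :=
    hDv.is_linear_image ⟨fun _ _ => rfl, fun _ _ => rfl⟩
  have hb := (box_main _ hD'c hD'v 0 (fun i => i.elim0) (fun i => i.elim0)).2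
  have hset : boxOver ((MeasurableEquiv.finTwoArrow : (Fin 2 → ℝ) ≃ᵐ ℝ × ℝ) '' D) 0
      (fun i => i.elim0) = D := by
    rw [box_zero]
    exact Set.preimage_image_eq D (MeasurableEquiv.finTwoArrow : (Fin 2 → ℝ) ≃ᵐ ℝ × ℝ).injective
  rw [hset] at hb
  have hb' : (4 : ENNReal) * volN D ≤ volN (projBodyN D) := by
    have e : (2 : ENNReal) ^ (2 + 0) * volume D ^ (1 + 0) = 4 * volume D := by norm_num
    rw [e] at hb
    exact hb
  unfold pettyN
  show kappa 1 ^ 2 * kappa 2 ^ 2 * volN D ^ 1 ≤ kappa 2 ^ 2 * volN (projBodyN D)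
  rw [kappa_one, pow_one]
  have e4 : (2 : ENNReal) ^ 2 = 4 := by norm_num
  rw [e4]
  calc (4 : ENNReal) * kappa 2 ^ 2 * volN D = kappa 2 ^ 2 * (4 * volN D) := by ring
    _ ≤ kappa 2 ^ 2 * volN (projBodyN D) := by gcongr

theorem seg_vol (t : ℝ) : volume (segment ℝ (0 : ℝ) t) = ENNReal.ofReal |t| := by
  rw [segment_eq_uIcc, Real.volume_interval, sub_zero]

/-- Sweeping a nonempty compact subset of `R^1` along `u` adds at least `|u 0|`. -/
theorem bright_line_ge (I : Set (Fin 1 → ℝ)) (hIc : IsCompact I) (hI0 : I.Nonempty)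
    (u : Fin 1 → ℝ) :
    |u 0| ≤ (volN (I + segment ℝ 0 u)).toReal - (volN I).toReal := by
  have hmp := volume_preserving_funUnique (Fin 1) ℝ
  have hcont : Continuous (MeasurableEquiv.funUnique (Fin 1) ℝ) := by
    have hf : ((MeasurableEquiv.funUnique (Fin 1) ℝ) : (Fin 1 → ℝ) → ℝ) = fun x => x 0 := rfl
    rw [hf]
    fun_prop
  set K : Set ℝ := (MeasurableEquiv.funUnique (Fin 1) ℝ) '' I with hK
  have hKc : IsCompact K := hIc.image hcont
  have hK0 : K.Nonempty := hI0.image _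
  have hpre : (MeasurableEquiv.funUnique (Fin 1) ℝ) ⁻¹' K = I :=
    Set.preimage_image_eq I (MeasurableEquiv.funUnique (Fin 1) ℝ).injective
  have hsw := sweep_preimage (MeasurableEquiv.funUnique (Fin 1) ℝ) (fun _ _ => rfl)
    (fun _ _ => rfl) K u
  rw [hpre] at hsw
  have hu : (MeasurableEquiv.funUnique (Fin 1) ℝ) u = u 0 := rfl
  rw [hu] at hsw
  have h1 : volN (I + segment ℝ 0 u) = volume (K + segment ℝ (0 : ℝ) (u 0)) := by
    unfold volN
    rw [hsw]
    exact hmp.measure_preimage_equiv _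
  have h2 : volN I = volume K := by
    unfold volN
    rw [← hpre]
    exact hmp.measure_preimage_equiv _
  have hbm := PL.bm_compact K (segment ℝ (0 : ℝ) (u 0)) hKc (isCompact_seg' _ _) hK0
    ⟨0, left_mem_segment ℝ 0 (u 0)⟩
  rw [seg_vol] at hbm
  have hfin : volume (K + segment ℝ (0 : ℝ) (u 0)) ≠ ⊤ :=
    (hKc.add (isCompact_seg' _ _)).measure_lt_top.ne
  have hfinK : volume K ≠ ⊤ := hKc.measure_lt_top.ne
  have h3 := ENNReal.toReal_mono hfin hbm
  rw [ENNReal.toReal_add hfinK ENNReal.ofReal_ne_top, ENNReal.toReal_ofReal (abs_nonneg _)] at h3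
  rw [h1, h2]
  linarith

/-- Segment base case: every nonempty compact subset of `R^1` satisfies Petty's inequality
(in dimension one it reads `κ_0 κ_1 = 2 ≤ |Π K|`). -/
theorem petty_segment (I : Set (Fin 1 → ℝ)) (hIc : IsCompact I) (hI0 : I.Nonempty) :
    pettyN 1 I := by
  have hmp := volume_preserving_funUnique (Fin 1) ℝ
  have hsub : (MeasurableEquiv.funUnique (Fin 1) ℝ) ⁻¹' (Icc (-1 : ℝ) 1) ⊆ projBodyN I := by
    intro x hx u
    have hx' : x 0 ∈ Icc (-1 : ℝ) 1 := hx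
    have hb := bright_line_ge I hIc hI0 u
    have hd : dotN x u = x 0 * u 0 := by
      unfold dotN
      rw [Fin.sum_univ_one]
    rw [hd]
    have h1 : x 0 * u 0 ≤ |u 0| := by
      calc x 0 * u 0 ≤ |x 0 * u 0| := le_abs_self _
        _ = |x 0| * |u 0| := abs_mul _ _
        _ ≤ 1 * |u 0| := by
            gcongr
            exact abs_le.2 hx'
        _ = |u 0| := one_mul _
    linarith
  have key : (2 : ENNReal) ≤ volN (projBodyN I) := by
    refine le_trans (le_of_eq ?_) (measure_mono hsub)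
    have h := hmp.measure_preimage_equiv (Icc (-1 : ℝ) 1)
    rw [Real.volume_Icc] at h
    have e2 : ENNReal.ofReal (1 - (-1 : ℝ)) = 2 := by norm_num
    rw [e2] at h
    exact h.symm
  unfold pettyN
  show kappa 0 ^ 1 * kappa 1 ^ 2 * volN I ^ 0 ≤ kappa 1 ^ 1 * volN (projBodyN I)
  rw [kappa_zero, kappa_one, pow_zero, pow_one, pow_one, one_mul, mul_one]
  calc (2 : ENNReal) ^ 2 = 2 * 2 := by norm_num
    _ ≤ 2 * volN (projBodyN I) := by gcongr

end Vale.Agent.Lib.P237
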