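import Mathlib
import Vale.Agent.Lib.P237.helper98.ProdBase
import Vale.Agent.Lib.P237.helper55.BrightProd
import Vale.Agent.Lib.P237.helper55.PettyClear

/-!
# P237 (helper98): Petty's inequality and products in the model `Fin N → ℝ`

Assembly of the product inequality for projection bodies (`H55.prod_main98`, helper55), the
comparison of Petty's constants (`H55.kp_prod`, helper55), the transfer to `Fin (a + b) → ℝ`
and the base cases: the product inequality, the inheritance of Petty's inequality by products,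
and Petty's inequality for every finite product of planar compact convex sets and segments.
-/

open MeasureTheory Set
open scoped Pointwise

namespace Vale.Agent.Lib.P237

/-- The product inequality `|Π (K1 × K2)| ≥ |K2|^a |K1|^b |Π K1| |Π K2|`. -/
theorem prodN_main {a b : ℕ} (K1 : Set (Fin a → ℝ)) (K2 : Set (Fin b → ℝ))
    (hK1 : IsCompact K1) (hK1v : Convex ℝ K1) (hK2 : IsCompact K2) (hK2v : Convex ℝ K2) :
    volN K2 ^ a * volN K1 ^ b * volN (projBodyN K1) * volN (projBodyN K2)
      ≤ volN (projBodyN (prodN K1 K2)) := by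
  have hprod := H55.prod_main98 (volume : Measure (Fin a → ℝ)) (volume : Measure (Fin b → ℝ))
    dotN dotN dotN_smul dotN_smul K1 hK1 hK1v K2 hK2 hK2v
  rw [Module.finrank_fin_fun ℝ, Module.finrank_fin_fun ℝ] at hprod
  exact prodN_ge K1 K2 hprod

/-- Petty's inequality is inherited by products. -/
theorem prodN_petty {a b : ℕ} (ha : 1 ≤ a) (hb : 1 ≤ b) (K1 : Set (Fin a → ℝ))
    (K2 : Set (Fin b → ℝ)) (hK1 : IsCompact K1) (hK1v : Convex ℝ K1) (hK2 : IsCompact K2)
    (hK2v : Convex ℝ K2) (h1 : pettyN a K1) (h2 : pettyN b K2) :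
    pettyN (a + b) (prodN K1 K2) := by
  have hA := prodN_main K1 K2 hK1 hK1v hK2 hK2v
  obtain ⟨p, rfl⟩ : ∃ p, a = p + 1 := ⟨a - 1, by omega⟩
  obtain ⟨q, rfl⟩ : ∃ q, b = q + 1 := ⟨b - 1, by omega⟩
  exact petty_prod p q K1 K2 hA (H55.kp_prod p q) h1 h2

/-- Every set of the class `ProdClass` is compact, convex, of dimension at least one, and
satisfies Petty's inequality. -/
theorem prodClass_all {N : ℕ} {K : Set (Fin N → ℝ)} (h : ProdClass N K) :
    1 ≤ N ∧ IsCompact K ∧ Convex ℝ K ∧ pettyN N K := by
  induction h with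
  | planar D hc hv => exact ⟨by norm_num, hc, hv, petty_planar D hc hv⟩
  | segment I hc hv h0 => exact ⟨le_refl 1, hc, hv, petty_segment I hc h0⟩
  | prod h1 h2 ih1 ih2 =>
    obtain ⟨ha, c1, v1, p1⟩ := ih1
    obtain ⟨hb, c2, v2, p2⟩ := ih2
    exact ⟨by omega, prodN_compact _ _ c1 c2, prodN_convex _ _ v1 v2,
      prodN_petty ha hb _ _ c1 v1 c2 v2 p1 p2⟩

/-- Petty's inequality for every finite product of planar compact convex sets and segments. -/
theorem prodClass_petty (N : ℕ) (K : Set (Fin N → ℝ)) (h : ProdClass N K) : pettyN N K :=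
  (prodClass_all h).2.2.2

end Vale.Agent.Lib.P237
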