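import Mathlib
import Vale.Agent.Lib.P237.helper98.ProdClass
import Vale.Agent.Lib.P237.helper55.PettyStrict

/-!
# P237: strictness of Petty's inequality for products in dimension at least three

Written by helper55 on top of helper98's `ProdClass`.  If `K1 ⊆ R^a` and `K2 ⊆ R^b` are
compact convex sets of positive volume that satisfy Petty's inequality and `a + b ≥ 3`, then
the product `prodN K1 K2` satisfies it strictly (`H55.petty_alg_lt`: the comparison of Petty's
constants is strict in dimension at least three).  Hence every set of the class `ProdClass`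
of dimension at least three and positive volume satisfies Petty's inequality strictly.
-/

open MeasureTheory Set
open scoped Pointwise

namespace Vale.Agent.Lib.P237

/-- The strict product step, in the form of `pettyN` with strict sign. -/
theorem prodN_petty_lt {a b : ℕ} (ha : 1 ≤ a) (hb : 1 ≤ b) (hab : 3 ≤ a + b)
    (K1 : Set (Fin a → ℝ)) (K2 : Set (Fin b → ℝ))
    (hK1 : IsCompact K1) (hK1v : Convex ℝ K1) (hK2 : IsCompact K2) (hK2v : Convex ℝ K2)
    (hv1 : volN K1 ≠ 0) (hv2 : volN K2 ≠ 0) (h1 : pettyN a K1) (h2 : pettyN b K2) :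
    kappa (a + b - 1) ^ (a + b) * kappa (a + b) ^ 2 * volN (prodN K1 K2) ^ (a + b - 1)
      < kappa (a + b) ^ (a + b) * volN (projBodyN (prodN K1 K2)) := by
  have hmain := prodN_main K1 K2 hK1 hK1v hK2 hK2v
  obtain ⟨p, rfl⟩ : ∃ p, a = p + 1 := ⟨a - 1, by omega⟩
  obtain ⟨q, rfl⟩ : ∃ q, b = q + 1 := ⟨b - 1, by omega⟩
  unfold pettyN at h1 h2
  rw [volN_prodN]
  have e1 : p + 1 - 1 = p := rfl
  have e2 : q + 1 - 1 = q := rfl
  have e3 : p + 1 + (q + 1) - 1 = p + q + 1 := by omega
  have e4 : p + 1 + (q + 1) = p + q + 2 := by omega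
  rw [e1] at h1
  rw [e2] at h2
  rw [e3]
  have ht1 : volN K1 ≠ ⊤ := hK1.measure_lt_top.ne
  have ht2 : volN K2 ≠ ⊤ := hK2.measure_lt_top.ne
  have h := H55.petty_alg_lt p q (by omega) (volN K1) (volN K2) (volN (projBodyN K1))
    (volN (projBodyN K2)) (volN (projBodyN (prodN K1 K2))) hv1 ht1 hv2 ht2 h1 h2 hmain
  generalize volN (projBodyN (prodN K1 K2)) = P at h ⊢
  rw [e4]
  exact h

/-- Every set of the class `ProdClass` of dimension `N ≥ 3` and positive volume satisfies
Petty's inequality strictly: `κ_(N-1)^N |K|^(N-1) < κ_N^(N-2) |Π K|`. -/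
theorem prodClass_petty_lt (N : ℕ) (K : Set (Fin N → ℝ)) (h : ProdClass N K) (hN : 3 ≤ N)
    (hpos : 0 < volN K) :
    kappa (N - 1) ^ N * volN K ^ (N - 1) < kappa N ^ (N - 2) * volN (projBodyN K) := by
  have key : kappa (N - 1) ^ N * kappa N ^ 2 * volN K ^ (N - 1)
      < kappa N ^ N * volN (projBodyN K) := by
    cases h with
    | planar D hc hv => omega
    | segment I hc hv h0 => omega
    | prod hA hB =>
      obtain ⟨ha, c1, v1, p1⟩ := prodClass_all hA
      obtain ⟨hb, c2, v2, p2⟩ := prodClass_all hB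
      have hpos' := hpos.ne'
      rw [volN_prodN] at hpos'
      exact prodN_petty_lt ha hb hN _ _ c1 v1 c2 v2 (left_ne_zero_of_mul hpos')
        (right_ne_zero_of_mul hpos') p1 p2
  obtain ⟨m, rfl⟩ : ∃ m, N = m + 2 := ⟨N - 2, by omega⟩
  have e1 : m + 2 - 1 = m + 1 := rfl
  have e2 : m + 2 - 2 = m := rfl
  rw [e1] at key ⊢
  rw [e2]
  have hc0 : kappa (m + 2) ^ 2 ≠ 0 := pow_ne_zero _ (kappa_ne_zero _)
  have hct : kappa (m + 2) ^ 2 ≠ ⊤ := ENNReal.pow_ne_top (kappa_ne_top _)
  have hl : kappa (m + 1) ^ (m + 2) * kappa (m + 2) ^ 2 * volN K ^ (m + 1)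
      = kappa (m + 1) ^ (m + 2) * volN K ^ (m + 1) * kappa (m + 2) ^ 2 := by ring
  have hr : kappa (m + 2) ^ (m + 2) * volN (projBodyN K)
      = kappa (m + 2) ^ m * volN (projBodyN K) * kappa (m + 2) ^ 2 := by
    rw [pow_add]
    ring
  rw [hl, hr, ENNReal.mul_lt_mul_iff_left hc0 hct] at key
  exact key

end Vale.Agent.Lib.P237
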