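import Mathlib
import Vale.Agent.Lib.P237.helper98.Defs
import Vale.Agent.Lib.P237.helper98.Mono

/-!
# P237 (helper98): vertical translates of right prisms

The projection body and the volume do not change under translation, so the results for the
prism `D × [0, h]` transfer to the prism `D × [c, c + h]`.
-/

open MeasureTheory Set

namespace Vale.Agent.Lib.P237

/-- `prismAt D c h`: the right prism of height `h` over the planar set `D` with base at
height `c`, namely the set of `x` in `R^3` with `(x_0, x_1)` in `D` and `c ≤ x_2 ≤ c + h`. -/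
def prismAt (D : Set (ℝ × ℝ)) (c h : ℝ) : Set E3 :=
  {x | (x 0, x 1) ∈ D ∧ c ≤ x 2 ∧ x 2 ≤ c + h}

theorem projArea_add (K : Set E3) (v a b : E3) :
    projArea ((fun x => x + v) ⁻¹' K) a b = projArea K a b := by
  unfold projArea
  have e : (fun x : E3 => ((inner ℝ x a : ℝ), (inner ℝ x b : ℝ))) '' ((fun x => x + v) ⁻¹' K)
      = (fun p : ℝ × ℝ => p + ((inner ℝ v a : ℝ), (inner ℝ v b : ℝ))) ⁻¹'
        ((fun x : E3 => ((inner ℝ x a : ℝ), (inner ℝ x b : ℝ))) '' K) := by
    ext p
    constructor
    · rintro ⟨x, hx, rfl⟩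
      refine ⟨x + v, hx, ?_⟩
      ext
      · simp [inner_add_left]
      · simp [inner_add_left]
    · rintro ⟨y, hy, hp⟩
      refine ⟨y - v, ?_, ?_⟩
      · show y - v + v ∈ K
        rw [sub_add_cancel]
        exact hy
      · have h1 : (inner ℝ y a : ℝ) = p.1 + inner ℝ v a := congrArg Prod.fst hp
        have h2 : (inner ℝ y b : ℝ) = p.2 + inner ℝ v b := congrArg Prod.snd hp
        ext
        · simp [inner_sub_left, h1]
        · simp [inner_sub_left, h2]
  rw [e, measure_preimage_add_right]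

theorem projBody_add (K : Set E3) (v : E3) :
    projBody ((fun x => x + v) ⁻¹' K) = projBody K := by
  ext x
  simp only [projBody, mem_ofPred_eq, projArea_add]

theorem prismAt_volume (D : Set (ℝ × ℝ)) (c h : ℝ) :
    volume (prismAt D c h) = volume (prism D h) := by
  have e : prismAt D c h
      = (fun x : E3 => x + -(EuclideanSpace.single (2 : Fin 3) c)) ⁻¹' prism D h := by
    ext x
    have e0 : (x + -(EuclideanSpace.single (2 : Fin 3) c)) 0 = x 0 := by simp
    have e1 : (x + -(EuclideanSpace.single (2 : Fin 3) c)) 1 = x 1 := by simp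
    have e2 : (x + -(EuclideanSpace.single (2 : Fin 3) c)) 2 = x 2 - c := by
      simp [sub_eq_add_neg]
    show ((x 0, x 1) ∈ D ∧ c ≤ x 2 ∧ x 2 ≤ c + h)
      ↔ (((x + -(EuclideanSpace.single (2 : Fin 3) c)) 0,
            (x + -(EuclideanSpace.single (2 : Fin 3) c)) 1) ∈ D
          ∧ 0 ≤ (x + -(EuclideanSpace.single (2 : Fin 3) c)) 2
          ∧ (x + -(EuclideanSpace.single (2 : Fin 3) c)) 2 ≤ h)
    rw [e0, e1, e2]
    constructor
    · rintro ⟨h1, h2, h3⟩
      exact ⟨h1, by linarith, by linarith⟩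
    · rintro ⟨h1, h2, h3⟩
      exact ⟨h1, by linarith, by linarith⟩
  rw [e, measure_preimage_add_right]

theorem prism_subset_of_prismAt (D : Set (ℝ × ℝ)) (c h : ℝ) {K : Set E3}
    (hsub : prismAt D c h ⊆ K) :
    prism D h ⊆ (fun x : E3 => x + EuclideanSpace.single (2 : Fin 3) c) ⁻¹' K := by
  rintro x ⟨hxD, hx0, hxh⟩
  have e0 : (x + EuclideanSpace.single (2 : Fin 3) c) 0 = x 0 := by simp
  have e1 : (x + EuclideanSpace.single (2 : Fin 3) c) 1 = x 1 := by simp
  have e2 : (x + EuclideanSpace.single (2 : Fin 3) c) 2 = x 2 + c := by simp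
  have hmem : x + EuclideanSpace.single (2 : Fin 3) c ∈ prismAt D c h := by
    show ((x + EuclideanSpace.single (2 : Fin 3) c) 0,
          (x + EuclideanSpace.single (2 : Fin 3) c) 1) ∈ D
        ∧ c ≤ (x + EuclideanSpace.single (2 : Fin 3) c) 2
        ∧ (x + EuclideanSpace.single (2 : Fin 3) c) 2 ≤ c + h
    rw [e0, e1, e2]
    exact ⟨hxD, by linarith, by linarith⟩
  exact hsub hmem

theorem isCompact_preimage_add {K : Set E3} (hK : IsCompact K) (v : E3) :
    IsCompact ((fun x : E3 => x + v) ⁻¹' K) :=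
  (Homeomorph.addRight v).isCompact_preimage.2 hK

end Vale.Agent.Lib.P237
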